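import Vale.Agent.P128.TA2.Upper

/-! P128 TA2/OfMin. Outer variation from minimality (helper names start with `ofm_`).
`a = 0`. `C ⊆ B = closedBall 0 R`. `comp_sphere` and `hmin` give finite energy in `B`. `u + t ψ` with the same `K` is a competitor; cancel the length. At points where `ψ` is
differentiable (`locLip_ae_diff`) `‖fderiv (u + t ψ)‖² = ‖fderiv u‖² + 2 t fderiv ψ (gr u) + t² ‖fderiv ψ‖²` (`norm_dz`, `fderiv_eq_dz`, `Complex.sq_norm`). Pass to real integrals
(`ofReal_integral_eq_lintegral_ofReal`, `measurable_fderiv`; the cross term is bounded by the sum of the squares); `0 ≤ 2 t I + t² J` for all `t` gives `I = 0`; off `B` the integrand vanishes. -/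

namespace Vale.Agent.P128

open MeasureTheory Set Metric Filter Topology
open scoped ENNReal

theorem ofm_dir (w : ℂ → ℝ) (S : Set ℂ) :
    Dir w S = ∫⁻ z in S, ENNReal.ofReal (‖fderiv ℝ w z‖ ^ 2) := by
  simp only [Dir, ENNReal.ofReal_pow (norm_nonneg _), ofReal_norm]

theorem ofm_int {w : ℂ → ℝ} {S : Set ℂ} (h : Dir w S ≠ ∞) :
    Integrable (fun z => ‖fderiv ℝ w z‖ ^ 2) (volume.restrict S) := by
  rw [ofm_dir] at h
  exact (lintegral_ofReal_ne_top_iff_integrable
    ((measurable_fderiv ℝ w).norm.pow_const 2).aestronglyMeasurable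
    (Eventually.of_forall fun z => sq_nonneg _)).1 h

theorem ofm_sq {u ψ : ℂ → ℝ} {z : ℂ} (hu : DifferentiableAt ℝ u z) (hψ : DifferentiableAt ℝ ψ z)
    (t : ℝ) : ‖fderiv ℝ (fun w => u w + t * ψ w) z‖ ^ 2 =
      ‖fderiv ℝ u z‖ ^ 2 + 2 * t * fderiv ℝ ψ z (gr u z) + t ^ 2 * ‖fderiv ℝ ψ z‖ ^ 2 := by
  have h1 : fderiv ℝ (fun w => u w + t * ψ w) z = fderiv ℝ u z + t • fderiv ℝ ψ z :=
    (hu.hasFDerivAt.add (hψ.hasFDerivAt.const_mul t)).fderiv
  have h2 : dz (fun w => u w + t * ψ w) z = dz u z + t * dz ψ z := by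
    simp only [dz, h1, add_apply, smul_apply, smul_eq_mul]
    push_cast
    ring
  rw [← (norm_dz _ z).1, ← (norm_dz u z).1, ← (norm_dz ψ z).1, h2, fderiv_eq_dz,
    (norm_dz u z).2.2.1]
  simp only [Complex.sq_norm, Complex.normSq_apply, Complex.add_re, Complex.add_im, Complex.mul_re,
    Complex.mul_im, Complex.ofReal_re, Complex.ofReal_im, Complex.conj_re, Complex.conj_im]
  ring

theorem ofm_meas (u ψ : ℂ → ℝ) : Measurable fun z => fderiv ℝ ψ z (gr u z) := by
  have h : ∀ (w : ℂ → ℝ) (v : ℂ), Measurable fun z => ((fderiv ℝ w z v : ℝ) : ℂ) := fun w v =>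
    Complex.measurable_ofReal.comp (measurable_fderiv_apply_const ℝ w v)
  have e : (fun z => fderiv ℝ ψ z (gr u z)) = fun z => (dz ψ z * gr u z).re :=
    funext fun z => fderiv_eq_dz ψ z _
  rw [e]
  exact Complex.measurable_re.comp (((h ψ 1).sub ((h ψ _).const_mul _)).mul
    ((h u 1).add ((h u _).const_mul _)))

theorem ofm_key {u ψ : ℂ → ℝ} {S : Set ℂ} (hu : Dir u S ≠ ∞) (hψ : Dir ψ S ≠ ∞)
    (hd : ∀ᵐ z ∂(volume.restrict S), DifferentiableAt ℝ u z ∧ DifferentiableAt ℝ ψ z)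
    (h : ∀ t : ℝ, Dir u S ≤ Dir (fun w => u w + t * ψ w) S) :
    ∫ z in S, fderiv ℝ ψ z (gr u z) = 0 := by
  have iA := ofm_int hu
  have iC := ofm_int hψ
  have iB : Integrable (fun z => fderiv ℝ ψ z (gr u z)) (volume.restrict S) := by
    refine (iA.add iC).mono' (ofm_meas u ψ).aestronglyMeasurable
      (Eventually.of_forall fun z => ?_)
    have h1 := (fderiv ℝ ψ z).le_opNorm (gr u z)
    rw [(norm_dz u z).2.1] at h1
    simp only [Pi.add_apply]
    nlinarith [sq_nonneg (‖fderiv ℝ u z‖ - ‖fderiv ℝ ψ z‖), sq_nonneg ‖fderiv ℝ u z‖,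
      sq_nonneg ‖fderiv ℝ ψ z‖]
  have key : ∀ t : ℝ, 0 ≤ (∫ z in S, ‖fderiv ℝ ψ z‖ ^ 2) * (t * t) +
      (2 * ∫ z in S, fderiv ℝ ψ z (gr u z)) * t + 0 := fun t => by
    have e : (fun z => ‖fderiv ℝ (fun w => u w + t * ψ w) z‖ ^ 2) =ᵐ[volume.restrict S] fun z =>
        ‖fderiv ℝ u z‖ ^ 2 + 2 * t * fderiv ℝ ψ z (gr u z) + t ^ 2 * ‖fderiv ℝ ψ z‖ ^ 2 := by
      filter_upwards [hd] with z hz using ofm_sq hz.1 hz.2 t
    have i1 : Integrable (fun z => ‖fderiv ℝ u z‖ ^ 2 + 2 * t * fderiv ℝ ψ z (gr u z))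
        (volume.restrict S) := iA.add (iB.const_mul _)
    have i2 := iC.const_mul (t ^ 2)
    have i3 : Integrable (fun z => ‖fderiv ℝ (fun w => u w + t * ψ w) z‖ ^ 2)
        (volume.restrict S) := (i1.add i2).congr e.symm
    have h1 := h t
    rw [ofm_dir, ofm_dir,
      ← ofReal_integral_eq_lintegral_ofReal iA (Eventually.of_forall fun z => sq_nonneg _),
      ← ofReal_integral_eq_lintegral_ofReal i3 (Eventually.of_forall fun z => sq_nonneg _),
      ENNReal.ofReal_le_ofReal_iff (integral_nonneg fun z => sq_nonneg _), integral_congr_ae e,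
      integral_add i1 i2, integral_add iA (iB.const_mul _), integral_const_mul,
      integral_const_mul] at h1
    linarith
  have h2 := discrim_le_zero key
  rw [discrim] at h2
  nlinarith [sq_nonneg (∫ z in S, fderiv ℝ ψ z (gr u z))]

/-- An exact minimizer on the plane satisfies the outer variation identity. -/
theorem AM0.of_min {u : ℂ → ℝ} {K : Set ℂ} (hK : IsClosed K)
    (hd : ∀ z ∉ K, DifferentiableAt ℝ u z) (hh : DifferentiableOn ℂ (dz u) Kᶜ)
    (hmin : ∀ y r w L, 0 < r → Comp univ True u K y r w L →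
      En u K (closedBall y r) ≤ En w L (closedBall y r)) : AM0 univ 0 True u K := by
  have hU : IsOpen (univ \ K) := isOpen_univ.sdiff hK
  have hd' : ∀ z ∈ univ \ K, DifferentiableAt ℝ u z := fun z hz => hd z hz.2
  have hh' : DifferentiableOn ℂ (dz u) (univ \ K) := hh.mono fun z hz => hz.2
  have hlip := (smooth_of_holo hU hd' hh').2.2.2
  refine ⟨isOpen_univ, hK, le_rfl, fun _ => rfl, fun y r _ _ => by simp, hd', hh',
    fun y r w L hr _ hc => (hmin y r w L hr hc).trans le_self_add,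
    0, le_rfl, fun y r _ _ => ⟨by simp, fun z _ => by simp⟩,
    fun ψ C hC _ h0 hψ _ hfin => ?_⟩
  obtain ⟨R, hR, hCR⟩ := hC.isBounded.subset_closedBall_lt 0 (0 : ℂ)
  obtain ⟨w, L, hc, hE⟩ := comp_sphere True isOpen_univ hK hlip 0 hR
  have hfinE : En u K (closedBall 0 R) ≠ ∞ :=
    ne_top_of_le_ne_top ENNReal.ofReal_ne_top ((hmin 0 R w L hR hc).trans hE)
  obtain ⟨f1, f2⟩ := ENNReal.add_ne_top.1 hfinE
  have hS : closedBall (0 : ℂ) R \ K ⊆ univ \ K := diff_subset_diff_left (subset_univ _)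
  have h1 : ∫ z in closedBall (0 : ℂ) R \ K, fderiv ℝ ψ z (gr u z) = 0 := by
    refine ofm_key f1 (ne_top_of_le_ne_top hfin.ne (lintegral_mono_set hS)) ?_ fun t => ?_
    · filter_upwards [ae_restrict_of_ae_restrict_of_subset hS (locLip_ae_diff hU hψ),
        ae_restrict_mem (measurableSet_closedBall.diff hK.measurableSet)] with z hz hz'
      exact ⟨hd z hz'.2, hz⟩
    · refine (ENNReal.add_le_add_iff_right f2).1
        (hmin 0 R (fun w => u w + t * ψ w) K hR ⟨hK, rfl, fun z _ hz => ?_, ?_, fun _ c hc => ?_⟩)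
      · rw [h0 z fun h => hz (hCR h), mul_zero, add_zero]
      · exact (locLip_iff hU).2 fun z hz =>
          ((locLip_iff hU).1 hlip z hz).add (((locLip_iff hU).1 hψ z hz).cmul t)
      · exact ⟨c, hc, fun _ _ _ => rfl⟩
  rw [setIntegral_eq_of_subset_of_forall_diff_eq_zero hU.measurableSet hS fun z hz => ?_, h1]
  · simp
  · have h2 : z ∉ C := fun h => hz.2 ⟨hCR h, hz.1.2⟩
    have h3 : ψ =ᶠ[𝓝 z] fun _ => 0 := by
      filter_upwards [hC.isClosed.isOpen_compl.mem_nhds h2] with y hy using h0 y hy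
    rw [h3.fderiv_eq]
    simp

end Vale.Agent.P128
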