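import Vale.Agent.P128.TA2.RescA

/-! P128 TA2/RescC. Rescaling of the outer variation (helper names start with `rsc_`).
`a' = a ρ √ρ`. Write `ψ = rescU ψ₀ x ρ` with `ψ₀ = rescU ψ (-x / ρ) ρ⁻¹`, `C₀ = rescS C (-x / ρ) ρ⁻¹` (compact: image of `C` under `z ↦ x + ρ z`); `resc_locLip`, `resc_Dir`,
`rescS_inv`; apply `h.outer` to `ψ₀`; `resc_fderiv`, `resc_integral`, `integral_const_mul`: each of the three integrals is a power of `ρ` times the old one, all terms get the factor `1 / ρ`. -/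

namespace Vale.Agent.P128

open MeasureTheory Set Metric Filter Topology
open scoped ENNReal

theorem rsc_compact {C : Set ℂ} (hC : IsCompact C) (x : ℂ) {ρ : ℝ} (hρ : 0 < ρ) :
    IsCompact (rescS C (-x / ρ) ρ⁻¹) := by
  have e : rescS C (-x / ρ) ρ⁻¹ = (fun z : ℂ => x + ρ * z) '' C := by
    ext z
    constructor
    · intro hz
      exact ⟨_, hz, (resc_inv x hρ z).1⟩
    · rintro ⟨w, hw, rfl⟩
      show -x / ρ + (ρ⁻¹ : ℝ) * (x + ρ * w) ∈ C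
      rwa [(resc_inv x hρ w).2]
  rw [e]
  exact hC.image (by fun_prop)

theorem rsc_ints (ψ u : ℂ → ℝ) {U : Set ℂ} (hU : MeasurableSet U) (x : ℂ) {ρ : ℝ} (hρ : 0 < ρ) :
    (∫ z in rescS U x ρ, fderiv ℝ (rescU ψ x ρ) z (gr (rescU u x ρ) z)) =
      ρ * ((∫ z in U, fderiv ℝ ψ z (gr u z)) / ρ ^ 2) ∧
    (∫ z in rescS U x ρ, |rescU ψ x ρ z|) = (√ρ)⁻¹ * ((∫ z in U, |ψ z|) / ρ ^ 2) ∧
    (∫ z in rescS U x ρ, ‖fderiv ℝ (rescU ψ x ρ) z‖) =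
      √ρ * ((∫ z in U, ‖fderiv ℝ ψ z‖) / ρ ^ 2) := by
  have hs : 0 < √ρ := Real.sqrt_pos.2 hρ
  refine ⟨?_, ?_, ?_⟩
  · rw [← resc_integral (fun z => fderiv ℝ ψ z (gr u z)) hU x hρ, ← integral_const_mul]
    congr 1
    funext z
    rw [(resc_fderiv ψ x hρ z).1, (resc_fderiv u x hρ z).2.2, map_smul,
      smul_apply, smul_eq_mul, smul_eq_mul, ← mul_assoc,
      Real.mul_self_sqrt hρ.le]
  · rw [← resc_integral (fun z => |ψ z|) hU x hρ, ← integral_const_mul]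
    congr 1
    funext z
    rw [rescU, abs_div, abs_of_pos hs, div_eq_inv_mul]
  · rw [← resc_integral (fun z => ‖fderiv ℝ ψ z‖) hU x hρ, ← integral_const_mul]
    congr 1
    funext z
    rw [(resc_fderiv ψ x hρ z).1, norm_smul, Real.norm_of_nonneg hs.le]

theorem resc_outer {Ω : Set ℂ} {ε : ℝ} {wk : Prop} {u : ℂ → ℝ} {K : Set ℂ}
    (h : AM0 Ω ε wk u K) (x : ℂ) {ρ : ℝ} (hρ : 0 < ρ) : ∃ a : ℝ, 0 ≤ a ∧
    (∀ y r, 0 < r → closedBall y r ⊆ rescS Ω x ρ → a * r ≤ ε * √ρ ∧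
      ∀ z ∈ rescS Ω x ρ \ rescS K x ρ, a * |rescU u x ρ z| * √r ≤ ε * √ρ) ∧
    ∀ (ψ : ℂ → ℝ) (C : Set ℂ), IsCompact C → C ⊆ rescS Ω x ρ → (∀ z, z ∉ C → ψ z = 0) →
      LocallyLipschitzOn (rescS Ω x ρ \ rescS K x ρ) ψ → (∃ M, ∀ z, |ψ z| ≤ M) →
      Dir ψ (rescS Ω x ρ \ rescS K x ρ) < ∞ →
      |∫ z in rescS Ω x ρ \ rescS K x ρ, fderiv ℝ ψ z (gr (rescU u x ρ) z)| ≤
        a * (∫ z in rescS Ω x ρ \ rescS K x ρ, |ψ z|) +
          ε * √ρ * ∫ z in rescS Ω x ρ \ rescS K x ρ, ‖fderiv ℝ ψ z‖ := by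
  obtain ⟨a, ha, h1, h2⟩ := h.outer
  have hs : 0 < √ρ := Real.sqrt_pos.2 hρ
  have hss : √ρ * √ρ = ρ := Real.mul_self_sqrt hρ.le
  have hU : MeasurableSet (Ω \ K) := (h.isOpen.sdiff h.closed).measurableSet
  have eU : rescS Ω x ρ \ rescS K x ρ = rescS (Ω \ K) x ρ := rfl
  refine ⟨a * ρ * √ρ, by positivity, fun y r hr hy => ?_, fun ψ C hC hCΩ h0 hlip hM hD => ?_⟩
  · obtain ⟨h3, h4⟩ := h1 _ _ (mul_pos hρ hr) (resc_sub hρ hy)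
    refine ⟨?_, fun z hz => ?_⟩
    · calc a * ρ * √ρ * r = a * (ρ * r) * √ρ := by ring
        _ ≤ ε * √ρ := mul_le_mul_of_nonneg_right h3 hs.le
    · have h5 := h4 (x + ρ * z) hz
      rw [Real.sqrt_mul hρ.le] at h5
      calc a * ρ * √ρ * |rescU u x ρ z| * √r = a * |u (x + ρ * z)| * (√ρ * √r) * √ρ := by
            rw [rescU, abs_div, abs_of_pos hs]
            field_simp
            rw [Real.sq_sqrt hρ.le]
        _ ≤ ε * √ρ := mul_le_mul_of_nonneg_right h5 hs.le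
  · rw [eU] at hlip hD ⊢
    have hρ' : 0 < ρ⁻¹ := inv_pos.2 hρ
    have e1 : rescU (rescU ψ (-x / ρ) ρ⁻¹) x ρ = ψ := (rescU_inv ψ x hρ).2
    have l1 : LocallyLipschitzOn (Ω \ K) (rescU ψ (-x / ρ) ρ⁻¹) := by
      have := resc_locLip hlip (-x / ρ) hρ'
      rwa [(rescS_inv _ x hρ).1] at this
    have l2 : Dir (rescU ψ (-x / ρ) ρ⁻¹) (Ω \ K) < ∞ := by
      rw [← resc_Dir _ hU x hρ, e1]
      exact ENNReal.mul_lt_top ENNReal.ofReal_lt_top hD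
    have l3 : rescS C (-x / ρ) ρ⁻¹ ⊆ Ω := by
      intro z hz
      have : z ∈ rescS (rescS Ω x ρ) (-x / ρ) ρ⁻¹ := hCΩ hz
      rwa [(rescS_inv _ x hρ).1] at this
    have l4 : ∃ M, ∀ z, |rescU ψ (-x / ρ) ρ⁻¹ z| ≤ M := by
      obtain ⟨M, hM⟩ := hM
      refine ⟨M / √ρ⁻¹, fun z => ?_⟩
      rw [rescU, abs_div, abs_of_nonneg (Real.sqrt_nonneg _)]
      exact div_le_div_of_nonneg_right (hM _) (Real.sqrt_nonneg _)
    have key := h2 (rescU ψ (-x / ρ) ρ⁻¹) _ (rsc_compact hC x hρ) l3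
      (fun z hz => by rw [rescU, h0 _ hz, zero_div]) l1 l4 l2
    obtain ⟨i1, i2, i3⟩ := rsc_ints (rescU ψ (-x / ρ) ρ⁻¹) u hU x hρ
    rw [e1] at i1 i2 i3
    rw [i1, i2, i3]
    generalize (∫ z in Ω \ K, fderiv ℝ (rescU ψ (-x / ρ) ρ⁻¹) z (gr u z)) = I1 at key ⊢
    generalize (∫ z in Ω \ K, |rescU ψ (-x / ρ) ρ⁻¹ z|) = I2 at key ⊢
    generalize (∫ z in Ω \ K, ‖fderiv ℝ (rescU ψ (-x / ρ) ρ⁻¹) z‖) = I3 at key ⊢
    have e2 : ρ * (I1 / ρ ^ 2) = I1 / ρ := by field_simp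
    have e3 : a * ρ * √ρ * ((√ρ)⁻¹ * (I2 / ρ ^ 2)) + ε * √ρ * (√ρ * (I3 / ρ ^ 2)) =
        (a * I2 + ε * I3) / ρ := by
      rw [show ε * √ρ * (√ρ * (I3 / ρ ^ 2)) = ε * (√ρ * √ρ) * (I3 / ρ ^ 2) by ring, hss]
      field_simp
    rw [e2, e3, abs_div, abs_of_pos hρ]
    exact div_le_div_of_nonneg_right key hρ.le

end Vale.Agent.P128
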