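import Vale.Agent.P128.TA2.RescB
import Vale.Agent.P128.TA2.RescC

/-! P128 TA2/RescD. Rescaling theorems (helper names start with `rsd_`).
`AM0.rescale`: preimages under the continuous map, `resc_sub`, `Real.sqrt_mul`, `resc_fderiv`, `resc_min`, `resc_outer`. `AM.rescale`: `resc_len`, `resc_balls`.
`resc_real`: `resc_Dir`, `resc_len`, `ENNReal.toReal_mul`; `Close`: substitute `w = x + ρ w'` (`resc_inv`, `resc_dist`). -/

namespace Vale.Agent.P128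

open MeasureTheory Set Metric Filter Topology
open scoped ENNReal

theorem rsd_cont (x : ℂ) (ρ : ℝ) : Continuous fun z : ℂ => x + ρ * z := by
  fun_prop

theorem rsd_diffC (x : ℂ) (ρ : ℝ) : Differentiable ℂ fun z : ℂ => x + ρ * z := by
  fun_prop

theorem rsd_diffR (x : ℂ) (ρ : ℝ) : Differentiable ℝ fun z : ℂ => x + ρ * z := by
  fun_prop

theorem rsd_real {a b : ℝ≥0∞} {ρ : ℝ} (hρ : 0 < ρ) (h : ENNReal.ofReal ρ * a = b) :
    a.toReal = b.toReal / ρ := by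
  rw [← h, ENNReal.toReal_mul, ENNReal.toReal_ofReal hρ.le]
  field_simp

theorem rsd_surj (x : ℂ) {ρ : ℝ} (hρ : 0 < ρ) (w : ℂ) : ∃ w' : ℂ, w = x + ρ * w' :=
  ⟨_, (resc_inv x hρ w).1.symm⟩

theorem rsd_mem (S : Set ℂ) (x : ℂ) (ρ : ℝ) (z : ℂ) : z ∈ rescS S x ρ ↔ x + ρ * z ∈ S := Iff.rfl

theorem rsd_map (x : ℂ) {ρ : ℝ} (hρ : 0 < ρ) :
    Measure.map (fun z : ℂ => x + ρ * z) volume = ENNReal.ofReal (ρ ^ 2)⁻¹ • volume := by
  have e : (fun z : ℂ => x + ρ * z) = (fun z => x + z) ∘ fun z : ℂ => ρ • z := by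
    funext z
    simp
  rw [e, ← Measure.map_map (by fun_prop) (by fun_prop), Measure.map_addHaar_smul _ hρ.ne',
    Measure.map_smul, map_add_left_eq_self, Complex.finrank_real_complex,
    abs_of_pos (by positivity)]

theorem rsd_emb (x : ℂ) {ρ : ℝ} (hρ : 0 < ρ) : MeasurableEmbedding fun z : ℂ => x + ρ * z :=
  (measurableEmbedding_addLeft x).comp
    (measurableEmbedding_mulLeft₀ (Complex.ofReal_ne_zero.2 hρ.ne'))

/-- `resc_Dir` without measurability. -/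
theorem rsd_Dir (u : ℂ → ℝ) (S : Set ℂ) (x : ℂ) {ρ : ℝ} (hρ : 0 < ρ) :
    ENNReal.ofReal ρ * Dir (rescU u x ρ) (rescS S x ρ) = Dir u S := by
  have h1 : ∀ z, ‖fderiv ℝ (rescU u x ρ) z‖ₑ ^ 2 =
      ENNReal.ofReal ρ * ‖fderiv ℝ u (x + ρ * z)‖ₑ ^ 2 := fun z => by
    rw [(resc_fderiv u x hρ z).1, enorm_smul, mul_pow, Real.enorm_eq_ofReal (Real.sqrt_nonneg _),
      ← ENNReal.ofReal_pow (Real.sqrt_nonneg _), Real.sq_sqrt hρ.le]
  have h2 := (rsd_emb x hρ).lintegral_map (μ := volume.restrict (rescS S x ρ))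
    (fun z => ‖fderiv ℝ u z‖ₑ ^ 2)
  have h3 := (rsd_emb x hρ).restrict_map volume S
  rw [rsd_map x hρ, Measure.restrict_smul] at h3
  unfold Dir
  simp only [h1]
  rw [lintegral_const_mul' _ _ ENNReal.ofReal_ne_top, ← h2]
  erw [← h3]
  rw [lintegral_smul_measure, smul_eq_mul, ← mul_assoc, ← mul_assoc,
    ← ENNReal.ofReal_mul hρ.le, ← ENNReal.ofReal_mul (by positivity)]
  have : ρ * ρ * (ρ ^ 2)⁻¹ = 1 := by field_simp
  rw [this, ENNReal.ofReal_one, one_mul]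

theorem AM0.rescale {Ω : Set ℂ} {ε : ℝ} {wk : Prop} {u : ℂ → ℝ} {K : Set ℂ}
    (h : AM0 Ω ε wk u K) (x : ℂ) {ρ : ℝ} (hρ : 0 < ρ) :
    AM0 (rescS Ω x ρ) (ε * √ρ) wk (rescU u x ρ) (rescS K x ρ) where
  isOpen := h.isOpen.preimage (rsd_cont x ρ)
  closed := h.closed.preimage (rsd_cont x ρ)
  eps := mul_nonneg h.eps (Real.sqrt_nonneg _)
  wk0 := fun hw => by rw [h.wk0 hw, zero_mul]
  small := fun y r hr hB => by
    have := h.small _ _ (mul_pos hρ hr) (resc_sub hρ hB)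
    rwa [Real.sqrt_mul hρ.le, ← mul_assoc] at this
  diff := fun z hz => by
    have h1 : DifferentiableAt ℝ (fun z : ℂ => u (x + ρ * z)) z :=
      DifferentiableAt.comp (g := u) (f := fun z : ℂ => x + ρ * z) z (h.diff (x + ρ * z) hz)
        (rsd_diffR x ρ z)
    have h2 := h1.mul_const (√ρ)⁻¹
    simp only [← div_eq_mul_inv] at h2
    exact h2
  holo := by
    have e : dz (rescU u x ρ) = fun y => ((√ρ : ℝ) : ℂ) * dz u (x + ρ * y) :=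
      funext fun y => (resc_fderiv u x hρ y).2.1
    rw [e]
    exact (h.holo.comp (rsd_diffC x ρ).differentiableOn fun z hz => hz).const_mul _
  min := fun y r w L hr hB hc => resc_min h x hρ hr hB hc
  outer := resc_outer h x hρ

theorem AM.rescale {Ω : Set ℂ} {ε c : ℝ} {wk : Prop} {u : ℂ → ℝ} {K : Set ℂ}
    (h : AM Ω ε wk c u K) (x : ℂ) {ρ : ℝ} (hρ : 0 < ρ) :
    AM (rescS Ω x ρ) (ε * √ρ) wk c (rescU u x ρ) (rescS K x ρ) where
  toAM0 := h.toAM0.rescale x hρ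
  cpos := h.cpos
  cle := h.cle
  dens := fun y hy r hr hB => by
    have h1 := h.dens (x + ρ * y) hy _ (mul_pos hρ hr) (resc_sub hρ hB)
    have h2 := resc_len (K ∩ ball (x + ρ * y) (ρ * r)) x hρ
    have h3 : rescS (K ∩ ball (x + ρ * y) (ρ * r)) x ρ = rescS K x ρ ∩ ball y r := by
      rw [← (resc_balls x hρ y r).2]
      rfl
    rw [← h2, h3, mul_left_comm, ENNReal.ofReal_mul hρ.le] at h1
    exact (ENNReal.mul_le_mul_iff_right (ENNReal.ofReal_pos.2 hρ).ne' ENNReal.ofReal_ne_top).1 h1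

theorem GM.rescale {c : ℝ} {u : ℂ → ℝ} {K : Set ℂ} (h : GM c u K) (x : ℂ) {ρ : ℝ}
    (hρ : 0 < ρ) : GM c (rescU u x ρ) (rescS K x ρ) := by
  have h1 := AM.rescale h x hρ
  rw [zero_mul] at h1
  exact h1

theorem rsd_cone (x : ℂ) {ρ : ℝ} (hρ : 0 < ρ) (y : ℂ) (N : ℕ) (e w : ℂ) :
    x + ρ * w ∈ cone N (x + ρ * y) e ↔ w ∈ cone N y e := by
  have hc : (ρ : ℂ) ≠ 0 := Complex.ofReal_ne_zero.2 hρ.ne'
  constructor
  · rintro ⟨j, t, ht, h⟩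
    refine ⟨j, t / ρ, div_nonneg ht hρ.le, ?_⟩
    push_cast
    field_simp
    linear_combination h
  · rintro ⟨j, t, ht, h⟩
    refine ⟨j, ρ * t, mul_nonneg hρ.le ht, ?_⟩
    rw [h]
    push_cast
    ring

theorem rsd_ball (x : ℂ) {ρ : ℝ} (hρ : 0 < ρ) (y : ℂ) (r : ℝ) (w : ℂ) :
    x + ρ * w ∈ closedBall (x + ρ * y) (ρ * r) ↔ w ∈ closedBall y r := by
  rw [← (resc_balls x hρ y r).1]
  rfl

theorem rsd_le (x : ℂ) {ρ : ℝ} (hρ : 0 < ρ) (η r : ℝ) (w w' : ℂ) :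
    dist (x + ρ * w) (x + ρ * w') ≤ η * (ρ * r) ↔ dist w w' ≤ η * r := by
  rw [resc_dist x hρ, mul_left_comm, mul_le_mul_iff_right₀ hρ]

theorem rsd_close (K : Set ℂ) (x : ℂ) {ρ : ℝ} (hρ : 0 < ρ) (y : ℂ) (r : ℝ) (N : ℕ) (η : ℝ)
    (e : ℂ) : Close N η (rescS K x ρ) y r e ↔ Close N η K (x + ρ * y) (ρ * r) e := by
  constructor
  · rintro ⟨h0, h1, h2⟩
    refine ⟨h0, fun w hw => ?_, fun w hw => ?_⟩
    · obtain ⟨w, rfl⟩ := rsd_surj x hρ w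
      obtain ⟨w', h3, h4⟩ := h1 w ⟨hw.1, (rsd_ball x hρ y r w).1 hw.2⟩
      exact ⟨_, (rsd_cone x hρ y N e w').2 h3, (rsd_le x hρ η r w w').2 h4⟩
    · obtain ⟨w, rfl⟩ := rsd_surj x hρ w
      obtain ⟨w', h3, h4⟩ := h2 w ⟨(rsd_cone x hρ y N e w).1 hw.1, (rsd_ball x hρ y r w).1 hw.2⟩
      exact ⟨_, h3, (rsd_le x hρ η r w w').2 h4⟩
  · rintro ⟨h0, h1, h2⟩
    refine ⟨h0, fun w hw => ?_, fun w hw => ?_⟩
    · obtain ⟨w', h3, h4⟩ := h1 (x + ρ * w) ⟨hw.1, (rsd_ball x hρ y r w).2 hw.2⟩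
      obtain ⟨w', rfl⟩ := rsd_surj x hρ w'
      exact ⟨_, (rsd_cone x hρ y N e w').1 h3, (rsd_le x hρ η r w w').1 h4⟩
    · obtain ⟨w', h3, h4⟩ :=
        h2 (x + ρ * w) ⟨(rsd_cone x hρ y N e w).2 hw.1, (rsd_ball x hρ y r w).2 hw.2⟩
      obtain ⟨w', rfl⟩ := rsd_surj x hρ w'
      exact ⟨_, h3, (rsd_le x hρ η r w w').1 h4⟩

/-- Scaling of the real quantities and of the geometric notions. -/
theorem resc_real (u : ℂ → ℝ) (K : Set ℂ) (x : ℂ) {ρ : ℝ} (hρ : 0 < ρ) (y : ℂ) (r : ℝ) :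
    D (rescU u x ρ) (rescS K x ρ) y r = D u K (x + ρ * y) (ρ * r) / ρ ∧
    len (rescS K x ρ) y r = len K (x + ρ * y) (ρ * r) / ρ ∧
    lenc (rescS K x ρ) y r = lenc K (x + ρ * y) (ρ * r) / ρ ∧
    rescS (closedBall (x + ρ * y) (ρ * r)) x ρ = closedBall y r ∧
    rescS (ball (x + ρ * y) (ρ * r)) x ρ = ball y r ∧
    (∀ N η e, Close N η (rescS K x ρ) y r e ↔ Close N η K (x + ρ * y) (ρ * r) e) ∧
    (∀ N e, rescS (cone N (x + ρ * y) e) x ρ = cone N y e) ∧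
    fderiv ℝ (rescU u x ρ) y = √ρ • fderiv ℝ u (x + ρ * y) := by
  obtain ⟨hb1, hb2⟩ := resc_balls x hρ y r
  refine ⟨?_, ?_, ?_, hb1, hb2, rsd_close K x hρ y r,
    fun N e => Set.ext fun w => rsd_cone x hρ y N e w, (resc_fderiv u x hρ y).1⟩
  · unfold D
    rw [← hb2]
    exact rsd_real hρ (rsd_Dir u (ball (x + ρ * y) (ρ * r) \ K) x hρ)
  · unfold len
    rw [← hb2]
    exact rsd_real hρ (resc_len (K ∩ ball (x + ρ * y) (ρ * r)) x hρ)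
  · unfold lenc
    rw [← hb1]
    exact rsd_real hρ (resc_len (K ∩ closedBall (x + ρ * y) (ρ * r)) x hρ)

/-- Rescaled almost minimizers form a sequence. -/
theorem seq_of_blowup {c : ℝ} {Ω : ℕ → Set ℂ} {ε : ℕ → ℝ} {wk : ℕ → Prop} {u : ℕ → ℂ → ℝ}
    {K : ℕ → Set ℂ} (h : ∀ n, AM (Ω n) (ε n) (wk n) c (u n) (K n)) {x : ℕ → ℂ} {r ρ : ℕ → ℝ}
    (hρ : ∀ n, 0 < ρ n) (hB : ∀ n, closedBall (x n) (r n) ⊆ Ω n)
    (h1 : Tendsto (fun n => r n / ρ n) atTop atTop)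
    (h2 : Tendsto (fun n => ε n * √(ρ n)) atTop (𝓝 0)) :
    Seq c (fun n => rescS (Ω n) (x n) (ρ n)) (fun n => ε n * √(ρ n)) wk
      (fun n => rescU (u n) (x n) (ρ n)) (fun n => rescS (K n) (x n) (ρ n)) where
  am := fun n => (h n).rescale (x n) (hρ n)
  eps := h2
  dom := fun R => by
    filter_upwards [h1.eventually_ge_atTop R] with n hn z hz
    refine hB n ?_
    have h3 := (rsd_ball (x n) (hρ n) 0 R z).2 hz
    rw [mul_zero, add_zero] at h3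
    refine closedBall_subset_closedBall ?_ h3
    rw [le_div_iff₀ (hρ n)] at hn
    linarith [mul_comm R (ρ n)]

theorem Seq.subseq {c : ℝ} {Ω : ℕ → Set ℂ} {ε : ℕ → ℝ} {wk : ℕ → Prop} {u : ℕ → ℂ → ℝ}
    {K : ℕ → Set ℂ} (h : Seq c Ω ε wk u K) {φ : ℕ → ℕ} (hφ : StrictMono φ) :
    Seq c (Ω ∘ φ) (ε ∘ φ) (wk ∘ φ) (u ∘ φ) (K ∘ φ) where
  am := fun n => h.am (φ n)
  eps := h.eps.comp hφ.tendsto_atTop
  dom := fun R => hφ.tendsto_atTop.eventually (h.dom R)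

end Vale.Agent.P128
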