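import Vale.Agent.P128.TA1.Main

/-! P128 TA2/Lip. Locally Lipschitz kit (helper names start with `lip_`).
`LC.const`: `IsPreconnected.induction₂'`. `locLip_glue`: choose a ball around `z` inside `U` on which `w` is Lipschitz on both
pieces; a segment from the closed disc to the outside meets the circle (`intermediate_value_Icc`, `AffineMap.lineMap`,
`dist_lineMap_left`). `locLip_ae_diff`: `LipschitzOnWith.ae_differentiableWithinAt_of_mem`, `measure_null_of_locally_null`. -/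

namespace Vale.Agent.P128

open MeasureTheory Set Metric Filter Topology
open scoped ENNReal

/-- Lipschitz near a point. -/
def LipAt (f : ℂ → ℝ) (z : ℂ) : Prop := ∃ (C : NNReal) (t : Set ℂ), t ∈ 𝓝 z ∧ LipschitzOnWith C f t

theorem locLip_iff {U : Set ℂ} (hU : IsOpen U) {f : ℂ → ℝ} :
    LocallyLipschitzOn U f ↔ ∀ z ∈ U, LipAt f z := by
  refine forall₂_congr fun z hz => ?_
  rw [hU.nhdsWithin_eq hz]
  exact ⟨fun ⟨C, t, h⟩ => ⟨C, t, h⟩, fun ⟨C, t, h⟩ => ⟨C, t, h⟩⟩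

theorem LipAt.congr {f g : ℂ → ℝ} {z : ℂ} (h : LipAt f z) (e : g =ᶠ[𝓝 z] f) : LipAt g z := by
  obtain ⟨C, t, ht, h⟩ := h
  refine ⟨C, t ∩ {w | g w = f w}, inter_mem ht e, fun a ha b hb => ?_⟩
  rw [ha.2, hb.2]
  exact h ha.1 hb.1

theorem lipAt_const (c : ℝ) (z : ℂ) : LipAt (fun _ => c) z := by
  exact ⟨0, univ, univ_mem, (LipschitzWith.const c).lipschitzOnWith⟩

theorem LipAt.add {f g : ℂ → ℝ} {z : ℂ} (h : LipAt f z) (h' : LipAt g z) :
    LipAt (fun w => f w + g w) z := by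
  obtain ⟨C, t, ht, h⟩ := h
  obtain ⟨C', t', ht', h'⟩ := h'
  exact ⟨C + C', t ∩ t', inter_mem ht ht',
    (h.mono inter_subset_left).add (h'.mono inter_subset_right)⟩

theorem LipAt.cmul {f : ℂ → ℝ} {z : ℂ} (h : LipAt f z) (t : ℝ) : LipAt (fun w => t * f w) z := by
  obtain ⟨C, s, hs, h⟩ := h
  exact ⟨_, s, hs, (lipschitzWith_smul t).comp_lipschitzOnWith h⟩

/-- Adding a locally constant function changes nothing locally. -/
theorem LC.add_eq {U : Set ℂ} {κ : ℂ → ℝ} (h : LC U κ) (u : ℂ → ℝ) {z : ℂ} (hz : z ∈ U) :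
    (fun w => u w + κ w) =ᶠ[𝓝 z] (fun w => u w + κ z) ∧
      fderiv ℝ (fun w => u w + κ w) z = fderiv ℝ u z := by
  have e : (fun w => u w + κ w) =ᶠ[𝓝 z] (fun w => u w + κ z) := by
    filter_upwards [h z hz] with w hw
    rw [hw]
  exact ⟨e, by rw [e.fderiv_eq, fderiv_add_const]⟩

/-- The energy only depends on the derivative on `S \ L`. -/
theorem En_congr {w w' : ℂ → ℝ} {L S : Set ℂ} (hL : IsClosed L) (hS : MeasurableSet S)
    (h : ∀ z ∈ S \ L, fderiv ℝ w z = fderiv ℝ w' z) : En w L S = En w' L S := by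
  unfold En Dir
  rw [setLIntegral_congr_fun (hS.diff hL.measurableSet) fun z hz => by rw [h z hz]]

/-- A locally constant function is constant on preconnected subsets. -/
theorem LC.const {U : Set ℂ} {κ : ℂ → ℝ} (h : LC U κ) {S : Set ℂ} (hS : IsPreconnected S)
    (hSU : S ⊆ U) {p q : ℂ} (hp : p ∈ S) (hq : q ∈ S) : κ p = κ q := by
  refine hS.induction₂' (fun a b => κ a = κ b) (fun a ha => ?_) (fun _ _ _ _ _ _ => Eq.trans) hp hq
  filter_upwards [nhdsWithin_le_nhds (h a (hSU ha))] with b hb using ⟨hb.symm, hb⟩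

theorem lip_cross {y z p q : ℂ} {s δ : ℝ} (hp : p ∈ ball z δ) (hq : q ∈ ball z δ)
    (h1 : p ∈ closedBall y s) (h2 : q ∉ ball y s) :
    ∃ m ∈ ball z δ, m ∈ sphere y s ∧ dist p m + dist m q = dist p q := by
  have hc : Continuous fun t : ℝ => dist (AffineMap.lineMap p q t : ℂ) y := by fun_prop
  obtain ⟨t, ht, he⟩ := intermediate_value_Icc zero_le_one hc.continuousOn (a := 0) (b := 1)
    (show s ∈ Icc _ _ from ⟨by simpa using h1, by simpa using h2⟩)
  have hm : (AffineMap.lineMap p q t : ℂ) ∈ segment ℝ p q := by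
    rw [segment_eq_image_lineMap]
    exact ⟨t, ht, rfl⟩
  exact ⟨_, (convex_ball z δ).segment_subset hp hq hm, he, dist_add_dist_of_mem_segment hm⟩

theorem lip_piece {A : Set ℂ} (hA : IsClosed A) {U : Set ℂ} {f w : ℂ → ℝ}
    (hf : LocallyLipschitzOn (U ∩ A) f) (hw : ∀ z ∈ U ∩ A, w z = f z) {z : ℂ} (hz : z ∈ U) :
    ∃ (C : NNReal) (t : Set ℂ), t ∈ 𝓝 z ∧ LipschitzOnWith C w (t ∩ (U ∩ A)) := by
  by_cases h : z ∈ A
  · obtain ⟨C, t, ht, hl⟩ := hf ⟨hz, h⟩
    obtain ⟨v, hv, hs⟩ := mem_nhdsWithin_iff_exists_mem_nhds_inter.1 ht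
    refine ⟨C, v, hv, fun a ha b hb => ?_⟩
    rw [hw a ha.2, hw b hb.2]
    exact hl (hs ha) (hs hb)
  · exact ⟨0, Aᶜ, hA.isOpen_compl.mem_nhds h, fun a ha => absurd ha.2.2 ha.1⟩

/-- Gluing of locally Lipschitz functions across a circle. -/
theorem locLip_glue {U : Set ℂ} (hU : IsOpen U) {y : ℂ} {s : ℝ} {f g : ℂ → ℝ}
    (hf : LocallyLipschitzOn (U ∩ closedBall y s) f) (hg : LocallyLipschitzOn (U \ ball y s) g)
    (hfg : ∀ z ∈ U ∩ sphere y s, f z = g z) {w : ℂ → ℝ}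
    (hw1 : ∀ z ∈ U ∩ closedBall y s, w z = f z) (hw2 : ∀ z ∈ U \ ball y s, w z = g z) :
    LocallyLipschitzOn U w := by
  refine (locLip_iff hU).2 fun z hz => ?_
  obtain ⟨C, t, ht, h1⟩ := lip_piece isClosed_closedBall hf hw1 hz
  obtain ⟨C', t', ht', h2⟩ := lip_piece (A := (ball y s)ᶜ) isOpen_ball.isClosed_compl hg hw2 hz
  obtain ⟨δ, hδ, hs⟩ := Metric.mem_nhds_iff.1 (inter_mem (inter_mem ht ht') (hU.mem_nhds hz))
  have e1 : ∀ a ∈ ball z δ, ∀ b ∈ ball z δ, a ∈ closedBall y s → b ∈ closedBall y s →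
      dist (w a) (w b) ≤ max C C' * dist a b := fun a ha b hb ha' hb' =>
    (h1.weaken (le_max_left C C')).dist_le_mul a ⟨(hs ha).1.1, (hs ha).2, ha'⟩ b
      ⟨(hs hb).1.1, (hs hb).2, hb'⟩
  have e2 : ∀ a ∈ ball z δ, ∀ b ∈ ball z δ, a ∉ ball y s → b ∉ ball y s →
      dist (w a) (w b) ≤ max C C' * dist a b := fun a ha b hb ha' hb' =>
    (h2.weaken (le_max_right C C')).dist_le_mul a ⟨(hs ha).1.2, (hs ha).2, ha'⟩ b
      ⟨(hs hb).1.2, (hs hb).2, hb'⟩
  have e3 : ∀ a ∈ ball z δ, ∀ b ∈ ball z δ, a ∈ closedBall y s → b ∉ ball y s →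
      dist (w a) (w b) ≤ max C C' * dist a b := fun a ha b hb ha' hb' => by
    obtain ⟨m, hm, hm', he⟩ := lip_cross ha hb ha' hb'
    have i1 := e1 a ha m hm ha' (sphere_subset_closedBall hm')
    have i2 := e2 m hm b hb (fun h => absurd hm' (ne_of_lt h)) hb'
    rw [← he, mul_add]
    exact (dist_triangle _ _ _).trans (add_le_add i1 i2)
  refine ⟨max C C', ball z δ, ball_mem_nhds z hδ, LipschitzOnWith.of_dist_le_mul fun a ha b hb => ?_⟩
  by_cases ha' : a ∈ ball y s <;> by_cases hb' : b ∈ ball y s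
  · exact e1 a ha b hb (ball_subset_closedBall ha') (ball_subset_closedBall hb')
  · exact e3 a ha b hb (ball_subset_closedBall ha') hb'
  · rw [dist_comm, dist_comm a]
    exact e3 b hb a ha (ball_subset_closedBall hb') ha'
  · exact e2 a ha b hb ha' hb'

/-- A locally Lipschitz function on an open set is differentiable almost everywhere. -/
theorem locLip_ae_diff {U : Set ℂ} (hU : IsOpen U) {f : ℂ → ℝ} (hf : LocallyLipschitzOn U f) :
    ∀ᵐ z ∂(volume.restrict U), DifferentiableAt ℝ f z := by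
  rw [ae_restrict_iff' hU.measurableSet, ae_iff]
  refine measure_null_of_locally_null _ fun z hz => ?_
  rw [mem_ofPred_eq, Classical.not_imp] at hz
  obtain ⟨C, t, ht, h⟩ := (locLip_iff hU).1 hf z hz.1
  have h1 := (h.mono interior_subset).ae_differentiableWithinAt_of_mem (μ := volume)
  refine ⟨_, inter_mem_nhdsWithin _ (interior_mem_nhds.2 ht), measure_mono_null ?_ (ae_iff.1 h1)⟩
  intro a ha hn
  exact ha.1 fun _ => (hn ha.2).differentiableAt (isOpen_interior.mem_nhds ha.2)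

end Vale.Agent.P128
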