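import Vale.Agent.P128.TA2.Dz
import Vale.Agent.P128.TA2.Lip

/-! P128 TA2/Restr. Restriction (helper names start with `res_`).
`min`: `w' = w` on the closed ball `B`, `u` outside; `w' = w` on the open set `Ω' \ L` (`eqL`, `eqw`), `w' = u` near points off `B`; same gluing for `Sep`; `En_congr`.
`outer`: same `a`; `ψ` and `fderiv ψ` vanish off the compact `C ⊆ Ω'`, so Lipschitz bound, `Dir` and the integrals pass from `Ω' \ K` to `Ω \ K`
(`setIntegral_eq_of_subset_of_forall_sdiff_eq_zero`, `lintegral_union_le` or `setLIntegral_eq_of_support_subset`). -/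

namespace Vale.Agent.P128

open MeasureTheory Set Metric Filter Topology
open scoped ENNReal

open Classical in
theorem res_glue {Ω' K L B : Set ℂ} (hΩ : IsOpen Ω') (hL : IsClosed L) (hB : IsClosed B)
    (e : L \ B = K \ B) {f g : ℂ → ℝ} (hfg : ∀ z ∈ Ω' \ K, z ∉ B → f z = g z) :
    (∀ z ∈ Ω' \ L, (fun x => if x ∈ B then f x else g x) =ᶠ[𝓝 z] f) ∧
      ∀ z, z ∉ B → (fun x => if x ∈ B then f x else g x) =ᶠ[𝓝 z] g := by
  constructor
  · intro z hz
    filter_upwards [(hΩ.sdiff hL).mem_nhds hz] with x hx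
    split_ifs with hxB
    · rfl
    · refine (hfg x ⟨hx.1, fun hK => hx.2 ?_⟩ hxB).symm
      exact (e.symm.subset ⟨hK, hxB⟩).1
  · intro z hz
    filter_upwards [hB.isOpen_compl.mem_nhds hz] with x hx
    exact if_neg hx

open Classical in
theorem res_comp {Ω Ω' : Set ℂ} {ε : ℝ} {wk : Prop} {u : ℂ → ℝ} {K : Set ℂ}
    (h : AM0 Ω ε wk u K) (hΩ : IsOpen Ω') (hs : Ω' ⊆ Ω) {y : ℂ} {r : ℝ} {w : ℂ → ℝ} {L : Set ℂ}
    (hB : closedBall y r ⊆ Ω') (hc : Comp Ω' wk u K y r w L) :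
    Comp Ω wk u K y r (fun x => if x ∈ closedBall y r then w x else u x) L := by
  have hK : ∀ z ∈ Ω \ L, z ∉ closedBall y r → z ∈ Ω \ K := fun z hz hzB =>
    ⟨hz.1, fun hK => hz.2 (hc.eqL.symm.subset ⟨hK, hzB⟩).1⟩
  obtain ⟨g1, g2⟩ := res_glue hΩ hc.closed isClosed_closedBall hc.eqL hc.eqw
  refine ⟨hc.closed, hc.eqL, fun z _ hz => if_neg hz, ?_, fun hw c hcl => ?_⟩
  · rw [locLip_iff (h.isOpen.sdiff hc.closed)]
    intro z hz
    by_cases hzB : z ∈ closedBall y r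
    · exact ((locLip_iff (hΩ.sdiff hc.closed)).1 hc.lip z ⟨hB hzB, hz.2⟩).congr
        (g1 z ⟨hB hzB, hz.2⟩)
    · exact ((locLip_iff (h.isOpen.sdiff h.closed)).1 h.locLip z (hK z hz hzB)).congr (g2 z hzB)
  · obtain ⟨c', h1, h2⟩ := hc.sep hw c fun z hz => hcl z ⟨hs hz.1, hz.2⟩
    obtain ⟨k1, k2⟩ := res_glue hΩ hc.closed isClosed_closedBall hc.eqL h2
    refine ⟨fun x => if x ∈ closedBall y r then c' x else c x, fun z hz => ?_,
      fun z _ hz => if_neg hz⟩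
    by_cases hzB : z ∈ closedBall y r
    · filter_upwards [k1 z ⟨hB hzB, hz.2⟩, h1 z ⟨hB hzB, hz.2⟩] with x e1 e2
      rw [e1, e2, if_pos hzB]
    · filter_upwards [k2 z hzB, hcl z (hK z hz hzB)] with x e1 e2
      rw [e1, e2, if_neg hzB]

/-- Restriction to a smaller open set. -/
theorem AM.mono {Ω Ω' : Set ℂ} {ε c : ℝ} {wk : Prop} {u : ℂ → ℝ} {K : Set ℂ}
    (h : AM Ω ε wk c u K) (hΩ : IsOpen Ω') (hs : Ω' ⊆ Ω) : AM Ω' ε wk c u K := by
  classical
  have hsub : Ω' \ K ⊆ Ω \ K := sdiff_subset_sdiff_left hs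
  refine ⟨⟨hΩ, h.closed, h.eps, h.wk0, fun y r hr hB => h.small y r hr (hB.trans hs),
    fun z hz => h.diff z (hsub hz), h.holo.mono hsub, fun y r w L hr hB hc => ?_, ?_⟩,
    h.cpos, h.cle, fun y hy r hr hB => h.dens y hy r hr (hB.trans hs)⟩
  · have h1 := h.min y r _ L hr (hB.trans hs) (res_comp h.toAM0 hΩ hs hB hc)
    rwa [En_congr (w' := w) hc.closed measurableSet_closedBall fun z hz =>
      ((res_glue hΩ hc.closed isClosed_closedBall hc.eqL hc.eqw).1 z ⟨hB hz.1, hz.2⟩).fderiv_eq] at h1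
  · obtain ⟨a, ha, h1, h2⟩ := h.outer
    refine ⟨a, ha, fun y r hr hB => ⟨(h1 y r hr (hB.trans hs)).1,
      fun z hz => (h1 y r hr (hB.trans hs)).2 z (hsub hz)⟩, fun ψ C hC hCΩ h0 hl hb hd => ?_⟩
    have e0 : ∀ z, z ∉ C → ψ =ᶠ[𝓝 z] fun _ => 0 := fun z hz => by
      filter_upwards [hC.isClosed.isOpen_compl.mem_nhds hz] with x hx
      exact h0 x hx
    have e1 : ∀ z, z ∉ C → fderiv ℝ ψ z = 0 := fun z hz => by
      rw [(e0 z hz).fderiv_eq]
      exact fderiv_const_apply _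
    have hm : MeasurableSet (Ω \ K) := (h.isOpen.sdiff h.closed).measurableSet
    have hn : ∀ z ∈ (Ω \ K) \ (Ω' \ K), z ∉ C := fun z hz hzC => hz.2 ⟨hCΩ hzC, hz.1.2⟩
    have hl' : LocallyLipschitzOn (Ω \ K) ψ := by
      rw [locLip_iff (h.isOpen.sdiff h.closed)]
      intro z hz
      by_cases hzC : z ∈ C
      · exact (locLip_iff (hΩ.sdiff h.closed)).1 hl z ⟨hCΩ hzC, hz.2⟩
      · exact (lipAt_const 0 z).congr (e0 z hzC)
    have hd' : Dir ψ (Ω \ K) < ∞ := by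
      have s1 : Ω \ K ⊆ (Ω' \ K) ∪ Cᶜ := fun z hz => by
        by_cases hzC : z ∈ C
        · exact Or.inl ⟨hCΩ hzC, hz.2⟩
        · exact Or.inr hzC
      have s2 : ∫⁻ z in Cᶜ, ‖fderiv ℝ ψ z‖ₑ ^ 2 = 0 := by
        rw [setLIntegral_congr_fun (g := fun _ => 0) hC.isClosed.isOpen_compl.measurableSet
          fun z hz => by simp [e1 z hz, ← ofReal_norm], lintegral_zero]
      refine lt_of_le_of_lt ((lintegral_mono_set s1).trans (lintegral_union_le _ _ _)) ?_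
      rw [s2, add_zero]
      exact hd
    have key := h2 ψ C hC (hCΩ.trans hs) h0 hl' hb hd'
    rwa [setIntegral_eq_of_subset_of_forall_sdiff_eq_zero hm hsub
        (fun z hz => by rw [e1 z (hn z hz)]; rfl),
      setIntegral_eq_of_subset_of_forall_sdiff_eq_zero hm hsub
        (fun z hz => by rw [h0 z (hn z hz), abs_zero]),
      setIntegral_eq_of_subset_of_forall_sdiff_eq_zero hm hsub
        (fun z hz => by rw [e1 z (hn z hz), norm_zero])] at key

end Vale.Agent.P128
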