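import Vale.Agent.P128.TA2.Dz
import Vale.Agent.P128.TA2.Lip

/-! P128 TA2/Shift. Shift by a locally constant function; exact outer variation (helper names start with `shf_`).
`wk` gives `ε = 0`. `min`: `Comp.sep` gives `κ'`; `w + (-κ')` is a competitor for `u` (`LC.add_eq`, `locLip_iff`, `LipAt.congr`), `En_congr` twice.
`outer`: same `a`; `a r ≤ 0` forces `a = 0` once a ball exists; `gr` agrees on `Ω \ K` (`setIntegral_congr_fun`). `outer0`: `compl_eq_univ_diff`. -/

namespace Vale.Agent.P128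

open MeasureTheory Set Metric Filter Topology
open scoped ENNReal

theorem shf_neg {U : Set ℂ} {κ : ℂ → ℝ} (h : LC U κ) : LC U (fun z => -κ z) := by
  intro z hz
  filter_upwards [h z hz] with w hw
  rw [hw]

theorem shf_lip {U : Set ℂ} (hU : IsOpen U) {κ w : ℂ → ℝ} (h : LC U κ)
    (hw : LocallyLipschitzOn U w) : LocallyLipschitzOn U (fun z => w z + κ z) := by
  rw [locLip_iff hU] at hw ⊢
  intro z hz
  exact ((hw z hz).add (lipAt_const (κ z) z)).congr (h.add_eq w hz).1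

/-- In the topological case a locally constant function can be added. -/
theorem AM.shift {Ω : Set ℂ} {ε c : ℝ} {wk : Prop} {u : ℂ → ℝ} {K : Set ℂ}
    (h : AM Ω ε wk c u K) (hwk : wk) {κ : ℂ → ℝ} (hκ : LC (Ω \ K) κ) :
    AM Ω ε wk c (fun z => u z + κ z) K ∧
      ∀ z ∈ Ω \ K, fderiv ℝ (fun z => u z + κ z) z = fderiv ℝ u z := by
  have hε : ε = 0 := h.wk0 hwk
  have hfd : ∀ z ∈ Ω \ K, fderiv ℝ (fun z => u z + κ z) z = fderiv ℝ u z :=
    fun z hz => (hκ.add_eq u hz).2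
  refine ⟨⟨⟨h.isOpen, h.closed, h.eps, h.wk0, h.small, fun z hz => ?_, ?_, ?_, ?_⟩, h.cpos, h.cle,
    h.dens⟩, hfd⟩
  · exact ((h.diff z hz).add_const (κ z)).congr_of_eventuallyEq (hκ.add_eq u hz).1
  · refine h.holo.congr fun z hz => ?_
    simp only [dz, hfd z hz]
  · intro y r w L hr hB hc
    obtain ⟨κ', hκ', he⟩ := hc.sep hwk κ hκ
    have hn := shf_neg hκ'
    have hcomp : Comp Ω wk u K y r (fun z => w z + -κ' z) L := by
      refine ⟨hc.closed, hc.eqL, fun z hz hz' => ?_,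
        shf_lip (h.isOpen.sdiff hc.closed) hn hc.lip, hc.sep⟩
      rw [hc.eqw z hz hz', he z hz hz']
      ring
    have h1 := h.min y r _ L hr hB hcomp
    rw [En_congr (w := fun z => u z + κ z) (w' := u) h.closed measurableSet_closedBall
      (fun z hz => hfd z ⟨hB hz.1, hz.2⟩)]
    rw [En_congr (w := fun z => w z + -κ' z) (w' := w) hc.closed measurableSet_closedBall
      (fun z hz => (hn.add_eq w ⟨hB hz.1, hz.2⟩).2)] at h1
    exact h1
  · obtain ⟨a, ha, h1, h2⟩ := h.outer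
    refine ⟨a, ha, fun y r hr hB => ⟨(h1 y r hr hB).1, fun z _ => ?_⟩,
      fun ψ C hC hCΩ h0 hl hb hf => ?_⟩
    · have h3 := (h1 y r hr hB).1
      rw [hε] at h3
      have h4 : a = 0 := le_antisymm (by nlinarith) ha
      rw [h4, zero_mul, zero_mul]
      exact h.eps
    · have e : ∫ z in Ω \ K, fderiv ℝ ψ z (gr (fun z => u z + κ z) z) =
          ∫ z in Ω \ K, fderiv ℝ ψ z (gr u z) := by
        refine setIntegral_congr_fun (h.isOpen.sdiff h.closed).measurableSet fun z hz => ?_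
        simp only [gr, hfd z hz]
      rw [e]
      exact h2 ψ C hC hCΩ h0 hl hb hf

/-- Exact outer variation for global minimizers. -/
theorem GM.outer0 {c : ℝ} {u : ℂ → ℝ} {K : Set ℂ} (h : GM c u K) {ψ : ℂ → ℝ} {C : Set ℂ}
    (hC : IsCompact C) (h0 : ∀ z, z ∉ C → ψ z = 0) (hl : LocallyLipschitzOn Kᶜ ψ)
    (hb : ∃ M, ∀ z, |ψ z| ≤ M) (hf : Dir ψ Kᶜ < ∞) :
    ∫ z in Kᶜ, fderiv ℝ ψ z (gr u z) = 0 := by
  obtain ⟨a, ha, h1, h2⟩ := h.outer
  have h3 := (h1 0 1 one_pos (subset_univ _)).1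
  have h4 : a = 0 := le_antisymm (by linarith) ha
  rw [compl_eq_univ_diff] at hl hf ⊢
  have h5 := h2 ψ C hC (subset_univ _) h0 hl hb hf
  rw [h4, zero_mul, zero_mul, add_zero] at h5
  exact abs_nonpos_iff.mp h5

end Vale.Agent.P128
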