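import Vale.Agent.P128.TA2.Mono
import Vale.Agent.P128.TA2.RescD
import Vale.Agent.P128.TA2.Shift
import Vale.Agent.P128.TA2.Restr
import Vale.Agent.P128.TA2.OfMin

/-! P128 block TA2: basic properties of almost minimizers. The frozen interface statements live, unchanged, in the files
Dz (`fderiv_eq_dz`, `norm_dz`, `smooth_of_holo`), Grad (`grad_bound`), Upper (`AM0.upper`, `AM0.upper_real`, `AM0.vol`),
Mono (`AM0.mono_real`, `AM0.grad_le`), RescD (`AM0.rescale`, `AM.rescale`, `GM.rescale`, `resc_real`, `seq_of_blowup`, `Seq.subseq`),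
Shift (`AM.shift`, `GM.outer0`), Restr (`AM.mono`), OfMin (`AM0.of_min`), Lip (`LC.const`, `locLip_glue`, `locLip_ae_diff`). -/
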