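import Vale.Agent.P128.TA1.Main

/-! P128 TA2/Dz. Algebra of `dz`, `gr` and smoothness (helper names start with `dz_`).
`fderiv_eq_dz`: `v = v.re • 1 + v.im • I`. Norm: `ContinuousLinearMap.opNorm_le_bound` with `Complex.abs_re_le_norm`; test on `gr u z` for the converse.
`smooth_of_holo`: on a ball inside `U`, `dz u` has a primitive `F` (`DifferentiableOn.isExactOn_ball`), `u - Re F` has zero derivative, so it is
constant there (`IsOpen.is_const_of_fderiv_eq_zero`); `AnalyticAt.harmonicAt_re`, `harmonicAt_congr_nhds`, `ContDiffAt.exists_lipschitzOnWith`. -/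

namespace Vale.Agent.P128

open MeasureTheory Set Metric Filter Topology
open scoped ENNReal

theorem fderiv_eq_dz (u : ℂ → ℝ) (z v : ℂ) : fderiv ℝ u z v = (dz u z * v).re := by
  have e : v = v.re • (1 : ℂ) + v.im • Complex.I := by
    simp [Complex.re_add_im]
  conv_lhs => rw [e, map_add, map_smul, map_smul]
  simp [dz, mul_comm]

theorem norm_dz (u : ℂ → ℝ) (z : ℂ) :
    ‖dz u z‖ = ‖fderiv ℝ u z‖ ∧ ‖gr u z‖ = ‖fderiv ℝ u z‖ ∧
      gr u z = (starRingEnd ℂ) (dz u z) ∧ fderiv ℝ u z (gr u z) = ‖fderiv ℝ u z‖ ^ 2 := by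
  have h3 : gr u z = (starRingEnd ℂ) (dz u z) := by
    simp [gr, dz]
  have h2 : ‖gr u z‖ = ‖dz u z‖ := by rw [h3, Complex.norm_conj]
  have h4 : fderiv ℝ u z (gr u z) = ‖dz u z‖ ^ 2 := by
    rw [fderiv_eq_dz, h3, Complex.mul_conj, Complex.ofReal_re, Complex.normSq_eq_norm_sq]
  have h1 : ‖dz u z‖ = ‖fderiv ℝ u z‖ := by
    refine le_antisymm ?_ (ContinuousLinearMap.opNorm_le_bound _ (norm_nonneg _) fun v => ?_)
    · have h5 := (le_abs_self _).trans ((fderiv ℝ u z).le_opNorm (gr u z))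
      rw [h4, h2, sq] at h5
      rcases (norm_nonneg (dz u z)).eq_or_lt with h | h
      · rw [← h]
        exact norm_nonneg _
      · exact le_of_mul_le_mul_right h5 h
    · rw [fderiv_eq_dz, ← norm_mul]
      exact Complex.abs_re_le_norm _
  exact ⟨h1, h2.trans h1, h3, by rw [h4, h1]⟩

theorem dz_local {U : Set ℂ} (hU : IsOpen U) {u : ℂ → ℝ}
    (hd : ∀ z ∈ U, DifferentiableAt ℝ u z) (hh : DifferentiableOn ℂ (dz u) U) {z : ℂ}
    (hz : z ∈ U) : ∃ F : ℂ → ℂ, AnalyticAt ℂ F z ∧ u =ᶠ[𝓝 z] fun w => (F w).re := by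
  obtain ⟨δ, hδ, hs⟩ := Metric.isOpen_iff.1 hU z hz
  obtain ⟨F, hF⟩ := (hh.mono hs).isExactOn_ball
  have h1 : ∀ w ∈ ball z δ, HasFDerivAt (fun w => (F w).re) (fderiv ℝ u w) w := by
    intro w hw
    refine (Complex.reCLM.hasFDerivAt.comp w
      ((hF w hw).hasFDerivAt.restrictScalars ℝ)).congr_fderiv ?_
    ext1 v
    rw [fderiv_eq_dz, mul_comm]
    rfl
  obtain ⟨a, ha⟩ := isOpen_ball.exists_eq_add_of_fderiv_eq (convex_ball z δ).isPreconnected
    (fun w hw => (hd w (hs hw)).differentiableWithinAt)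
    (fun w hw => (h1 w hw).differentiableAt.differentiableWithinAt)
    fun w hw => (h1 w hw).fderiv.symm
  have h2 : DifferentiableOn ℂ F (ball z δ) := fun w hw =>
    (hF w hw).differentiableAt.differentiableWithinAt
  refine ⟨fun w => F w + a, (h2.analyticAt (ball_mem_nhds z hδ)).add analyticAt_const, ?_⟩
  filter_upwards [ball_mem_nhds z hδ] with w hw
  rw [ha hw, Complex.add_re, Complex.ofReal_re]

/-- Differentiable with holomorphic `dz` means smooth and harmonic. -/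
theorem smooth_of_holo {U : Set ℂ} (hU : IsOpen U) {u : ℂ → ℝ}
    (hd : ∀ z ∈ U, DifferentiableAt ℝ u z) (hh : DifferentiableOn ℂ (dz u) U) :
    ContDiffOn ℝ (⊤ : ℕ∞) u U ∧ InnerProductSpace.HarmonicOnNhd u U ∧
      ContinuousOn (fderiv ℝ u) U ∧ LocallyLipschitzOn U u := by
  have h1 : ∀ z ∈ U, ContDiffAt ℝ (⊤ : ℕ∞) u z := fun z hz => by
    obtain ⟨F, hF, e⟩ := dz_local hU hd hh hz
    exact (Complex.reCLM.contDiff.contDiffAt.comp z
      (hF.contDiffAt.restrict_scalars ℝ)).congr_of_eventuallyEq e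
  have h2 : ContDiffOn ℝ (⊤ : ℕ∞) u U := fun z hz => (h1 z hz).contDiffWithinAt
  refine ⟨h2, fun z hz => ?_, h2.continuousOn_fderiv_of_isOpen hU (by simp), fun z hz => ?_⟩
  · obtain ⟨F, hF, e⟩ := dz_local hU hd hh hz
    exact (InnerProductSpace.harmonicAt_congr_nhds e).2 hF.harmonicAt_re
  · obtain ⟨C, t, ht, h⟩ := ((h1 z hz).of_le (m := 1) (by simp)).exists_lipschitzOnWith
    exact ⟨C, t, mem_nhdsWithin_of_mem_nhds ht, h⟩

theorem AM0.locLip {Ω : Set ℂ} {ε : ℝ} {wk : Prop} {u : ℂ → ℝ} {K : Set ℂ}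
    (h : AM0 Ω ε wk u K) : LocallyLipschitzOn (Ω \ K) u :=
  (smooth_of_holo (h.isOpen.sdiff h.closed) h.diff h.holo).2.2.2

end Vale.Agent.P128
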