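import Vale.Agent.P128.TA2.Dz

/-! P128 TA2/Grad. Mean value bound (helper names start with `grad_`).
`f = dz u ^ 2` is holomorphic on the ball; for `0 < s < ρ` its value at `z` is its circle average (`DiffContOnCl.circleAverage` or
`circleAverage_of_differentiable_on`), so `2 π ‖dz u z‖² ≤ ∫ θ in -π..π, ‖dz u (circleMap z s θ)‖²` (`Function.Periodic.intervalIntegral_add_eq`,
`periodic_circleMap`; or `enorm_integral_le_lintegral_enorm`). Multiply by `s`, integrate over `Ioo 0 ρ`; `polar` with `K = ∅` (or `polar_gen`), `norm_dz`. -/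

namespace Vale.Agent.P128

open MeasureTheory Set Metric Filter Topology
open scoped ENNReal

theorem grad_enorm (u : ℂ → ℝ) (w : ℂ) : ‖dz u w ^ 2‖ₑ = ‖fderiv ℝ u w‖ₑ ^ 2 := by
  rw [enorm_pow, ← ofReal_norm, ← ofReal_norm, (norm_dz u w).1]

theorem grad_circ {u : ℂ → ℝ} {z : ℂ} {ρ s : ℝ} (hh : DifferentiableOn ℂ (dz u) (ball z ρ))
    (hs : s ∈ Ioo 0 ρ) : ENNReal.ofReal (2 * Real.pi) * ‖fderiv ℝ u z‖ₑ ^ 2 ≤
      ∫⁻ θ in Ioc (-Real.pi) Real.pi, ‖fderiv ℝ u (circleMap z s θ)‖ₑ ^ 2 := by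
  have hc : closedBall z |s| ⊆ ball z ρ := closedBall_subset_ball (by rw [abs_of_pos hs.1]; exact hs.2)
  have h1 : Real.circleAverage (fun w => dz u w ^ 2) z s = dz u z ^ 2 :=
    DiffContOnCl.circleAverage (f := fun w => dz u w ^ 2)
      (((hh.pow 2).mono (closure_ball_subset_closedBall.trans hc)).diffContOnCl)
  have hp : Function.Periodic (fun θ => dz u (circleMap z s θ) ^ 2) (2 * Real.pi) := fun θ => by
    simp only [periodic_circleMap z s θ]
  have h2 := hp.intervalIntegral_add_eq 0 (-Real.pi)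
  rw [zero_add, show -Real.pi + 2 * Real.pi = Real.pi by ring,
    intervalIntegral.integral_of_le (a := -Real.pi) (by linarith [Real.pi_pos])] at h2
  rw [Real.circleAverage_def, h2] at h1
  have h3 : (2 * Real.pi) • dz u z ^ 2 =
      ∫ θ in Ioc (-Real.pi) Real.pi, dz u (circleMap z s θ) ^ 2 := by
    rw [← h1, smul_inv_smul₀ (by positivity)]
  simp only [← grad_enorm]
  refine le_trans (le_of_eq ?_) (enorm_integral_le_lintegral_enorm _)
  rw [← h3, enorm_smul, Real.enorm_of_nonneg (by positivity)]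

/-- Mean value bound for the gradient. -/
theorem grad_bound {u : ℂ → ℝ} {z : ℂ} {ρ : ℝ} (hρ : 0 < ρ)
    (hh : DifferentiableOn ℂ (dz u) (ball z ρ)) :
    ‖fderiv ℝ u z‖ₑ ^ 2 * ENNReal.ofReal (Real.pi * ρ ^ 2) ≤ Dir u (ball z ρ) := by
  have hF : Measurable fun w => ‖fderiv ℝ u w‖ₑ ^ 2 := (measurable_fderiv ℝ u).enorm.pow_const 2
  have h1 := (polar_gen hF z).2 (Ioo 0 ρ) measurableSet_Ioo fun s hs => hs.1
  refine le_trans ?_ (lintegral_mono_set (s := {w | dist w z ∈ Ioo 0 ρ}) fun w hw => hw.2)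
  have h2 : ENNReal.ofReal (Real.pi * ρ ^ 2) =
      ∫⁻ s in Ioo 0 ρ, ENNReal.ofReal (s * (2 * Real.pi)) := by
    rw [← ofReal_integral_eq_lintegral_ofReal, ← integral_Ioc_eq_integral_Ioo,
      ← intervalIntegral.integral_of_le hρ.le, intervalIntegral.integral_mul_const, integral_id]
    · congr 1
      ring
    · exact ((continuous_id.mul continuous_const).integrableOn_Icc).mono_set Ioo_subset_Icc_self
    · exact (ae_restrict_mem measurableSet_Ioo).mono fun s hs => mul_nonneg hs.1.le (by positivity)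
  rw [h1, h2, ← lintegral_const_mul _ (by fun_prop)]
  refine setLIntegral_mono' measurableSet_Ioo fun s hs => ?_
  rw [lintegral_const_mul' _ _ ENNReal.ofReal_ne_top, ENNReal.ofReal_mul hs.1.le, mul_comm, mul_assoc]
  exact mul_le_mul_right (grad_circ hh hs) _

end Vale.Agent.P128
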