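import Vale.Agent.P128.TA2.Upper
import Vale.Agent.P128.TA2.Grad

/-! P128 TA2/Mono. Monotonicity, continuity of `D`, gradient bound (helper names start with `mon_`).
`ENNReal.toReal_mono` with `upper_real`, `lintegral_mono_set`, `measure_mono`. Continuity: by `polar`, `D u K y s = ∫ t in Ioc 0 s, (Dp u K y t).toReal`
(`integral_toReal`, `integrable_toReal_of_lintegral_ne_top`, `intervalIntegral.continuousOn_primitive`). `grad_le`: `grad_bound`, `ball \ K = ball`, `D ≤ 8 ρ`, `2 ≤ π`. -/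

namespace Vale.Agent.P128

open MeasureTheory Set Metric Filter Topology
open scoped ENNReal

/-- Monotonicity of the real quantities under inclusion of balls, and continuity of `D`. -/
theorem AM0.mono_real {Ω : Set ℂ} {ε : ℝ} {wk : Prop} {u : ℂ → ℝ} {K : Set ℂ}
    (h : AM0 Ω ε wk u K) {y : ℂ} {r : ℝ} (hr : 0 < r) (hB : closedBall y r ⊆ Ω) :
    (∀ y' r', ball y' r' ⊆ ball y r → D u K y' r' ≤ D u K y r ∧ len K y' r' ≤ len K y r) ∧
    (∀ y' r', closedBall y' r' ⊆ ball y r → lenc K y' r' ≤ len K y r) ∧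
    ContinuousOn (D u K y) (Icc 0 r) := by
  obtain ⟨-, hD, -, hL, -⟩ := h.upper_real hr hB
  have hD' : Dir u (ball y r \ K) ≠ ∞ := by rw [hD]; exact ENNReal.ofReal_ne_top
  have hL' : μH[1] (K ∩ ball y r) ≠ ∞ := by rw [hL]; exact ENNReal.ofReal_ne_top
  refine ⟨fun y' r' hs => ⟨ENNReal.toReal_mono hD' (lintegral_mono_set (sdiff_subset_sdiff_left hs)),
    ENNReal.toReal_mono hL' (measure_mono (inter_subset_inter_right _ hs))⟩,
    fun y' r' hs => ENNReal.toReal_mono hL' (measure_mono (inter_subset_inter_right _ hs)), ?_⟩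
  obtain ⟨hm, -, hp⟩ := polar h.closed u y
  have hfin : ∫⁻ s in Ioo 0 r, Dp u K y s ≠ ∞ := by rw [← (hp r).1]; exact hD'
  have hint : IntegrableOn (fun s => (Dp u K y s).toReal) (Icc 0 r) := by
    rw [integrableOn_Icc_iff_integrableOn_Ioo]
    exact integrable_toReal_of_lintegral_ne_top hm.aemeasurable hfin
  refine (intervalIntegral.continuousOn_primitive hint).congr fun s hs => ?_
  have hfs : ∫⁻ t in Ioo 0 s, Dp u K y t ≠ ∞ :=
    ne_top_of_le_ne_top hfin (lintegral_mono_set (Ioo_subset_Ioo_right hs.2))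
  simp only [D]
  rw [(hp s).1, integral_Ioc_eq_integral_Ioo,
    integral_toReal hm.aemeasurable (ae_lt_top hm hfs)]

/-- Pointwise gradient bound by the distance to `K`. -/
theorem AM0.grad_le {Ω : Set ℂ} {ε : ℝ} {wk : Prop} {u : ℂ → ℝ} {K : Set ℂ}
    (h : AM0 Ω ε wk u K) {z : ℂ} {ρ : ℝ} (hρ : 0 < ρ) (hB : closedBall z ρ ⊆ Ω)
    (hK : Disjoint (ball z ρ) K) :
    ‖fderiv ℝ u z‖ ^ 2 ≤ D u K z ρ / (Real.pi * ρ ^ 2) ∧ ‖fderiv ℝ u z‖ ≤ 2 / √ρ := by
  have hsub : ball z ρ ⊆ Ω \ K := fun w hw =>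
    ⟨hB (ball_subset_closedBall hw), fun hk => disjoint_left.1 hK hw hk⟩
  have hg := grad_bound hρ (h.holo.mono hsub)
  obtain ⟨-, hD, -, -, -, h0, h1, h2, h3⟩ := h.upper_real hρ hB
  rw [hK.sdiff_eq_left] at hD
  have hpos : 0 < Real.pi * ρ ^ 2 := by positivity
  have h4 : ‖fderiv ℝ u z‖ ^ 2 * (Real.pi * ρ ^ 2) ≤ D u K z ρ := by
    rw [hD, ← ofReal_norm, ← ENNReal.ofReal_pow (norm_nonneg _),
      ← ENNReal.ofReal_mul (by positivity)] at hg
    exact (ENNReal.ofReal_le_ofReal_iff h0).1 hg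
  refine ⟨(le_div_iff₀ hpos).2 h4, ?_⟩
  have hs : 0 < √ρ := Real.sqrt_pos.2 hρ
  rw [le_div_iff₀ hs]
  refine abs_le_of_sq_le_sq' ?_ (by norm_num) |>.2
  rw [mul_pow, Real.sq_sqrt hρ.le]
  have h5 : ‖fderiv ℝ u z‖ ^ 2 * ρ * (2 * ρ) ≤ 4 * (2 * ρ) := by
    have h6 : ‖fderiv ℝ u z‖ ^ 2 * (2 * ρ ^ 2) ≤ ‖fderiv ℝ u z‖ ^ 2 * (Real.pi * ρ ^ 2) := by
      gcongr
      exact Real.two_le_pi
    nlinarith
  have h7 := le_of_mul_le_mul_right h5 (by positivity)
  linarith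

end Vale.Agent.P128
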