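import Vale.Agent.P128.TA2.Dz

/-! P128 TA2/RescA. Scaling kit (helper names start with `rsa_`). `T z = x + ρ z`.
`resc_fderiv` holds without differentiability: `fderiv_comp_add_left`, `fderiv_comp_smul`, `fderiv_const_smul_field` (`Complex.real_smul`).
Integrals: `Measure.integral_comp_smul`, `integral_add_left_eq_self`, `Measure.map_addHaar_smul` / `lintegral_map_equiv` (`Complex.finrank_real_complex`), indicators.
`resc_len`: `rescS S x ρ = ρ⁻¹ • (-x +ᵥ S)`, `Measure.hausdorffMeasure_smul₀`, or `LipschitzWith.hausdorffMeasure_image_le` in both directions. -/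

namespace Vale.Agent.P128

open MeasureTheory Set Metric Filter Topology
open scoped ENNReal

theorem resc_inv (x : ℂ) {ρ : ℝ} (hρ : 0 < ρ) (z : ℂ) :
    x + ρ * (-x / ρ + (ρ⁻¹ : ℝ) * z) = z ∧ -x / ρ + (ρ⁻¹ : ℝ) * (x + ρ * z) = z := by
  have h : (ρ : ℂ) ≠ 0 := by exact_mod_cast hρ.ne'
  constructor
  · push_cast; field_simp; ring
  · push_cast; field_simp; ring

theorem rescS_inv (S : Set ℂ) (x : ℂ) {ρ : ℝ} (hρ : 0 < ρ) :
    rescS (rescS S x ρ) (-x / ρ) ρ⁻¹ = S ∧ rescS (rescS S (-x / ρ) ρ⁻¹) x ρ = S := by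
  constructor
  · ext z
    simp only [rescS, mem_ofPred_eq]
    rw [(resc_inv x hρ z).1]
  · ext z
    simp only [rescS, mem_ofPred_eq]
    rw [(resc_inv x hρ z).2]

theorem rescU_inv (u : ℂ → ℝ) (x : ℂ) {ρ : ℝ} (hρ : 0 < ρ) :
    rescU (rescU u x ρ) (-x / ρ) ρ⁻¹ = u ∧ rescU (rescU u (-x / ρ) ρ⁻¹) x ρ = u := by
  have hs : √ρ ≠ 0 := (Real.sqrt_pos.2 hρ).ne'
  constructor
  · ext z
    simp only [rescU]
    rw [(resc_inv x hρ z).1, Real.sqrt_inv]
    field_simp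
  · ext z
    simp only [rescU]
    rw [(resc_inv x hρ z).2, Real.sqrt_inv]
    field_simp

theorem resc_dist (x : ℂ) {ρ : ℝ} (hρ : 0 < ρ) (z y : ℂ) :
    dist (x + ρ * z) (x + ρ * y) = ρ * dist z y := by
  rw [dist_add_left, dist_eq_norm, dist_eq_norm, ← mul_sub, norm_mul, Complex.norm_real,
    Real.norm_of_nonneg hρ.le]

theorem resc_balls (x : ℂ) {ρ : ℝ} (hρ : 0 < ρ) (y : ℂ) (r : ℝ) :
    rescS (closedBall (x + ρ * y) (ρ * r)) x ρ = closedBall y r ∧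
      rescS (ball (x + ρ * y) (ρ * r)) x ρ = ball y r := by
  constructor
  · ext z
    simp only [rescS, mem_ofPred_eq, mem_closedBall]
    rw [resc_dist x hρ]
    exact mul_le_mul_iff_right₀ hρ
  · ext z
    simp only [rescS, mem_ofPred_eq, mem_ball]
    rw [resc_dist x hρ]
    exact mul_lt_mul_iff_right₀ hρ

theorem resc_sub {Ω : Set ℂ} {x : ℂ} {ρ : ℝ} (hρ : 0 < ρ) {y : ℂ} {r : ℝ}
    (h : closedBall y r ⊆ rescS Ω x ρ) : closedBall (x + ρ * y) (ρ * r) ⊆ Ω := by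
  intro w hw
  have e := (resc_inv x hρ w).1
  have h1 : (-x / ρ + (ρ⁻¹ : ℝ) * w) ∈ closedBall y r := by
    rw [← (resc_balls x hρ y r).1]
    simp only [rescS, mem_ofPred_eq]
    rw [e]; exact hw
  have h2 := h h1
  simp only [rescS, mem_ofPred_eq] at h2
  rwa [e] at h2

theorem resc_fderiv (u : ℂ → ℝ) (x : ℂ) {ρ : ℝ} (hρ : 0 < ρ) (y : ℂ) :
    fderiv ℝ (rescU u x ρ) y = √ρ • fderiv ℝ u (x + ρ * y) ∧
      dz (rescU u x ρ) y = (√ρ : ℝ) * dz u (x + ρ * y) ∧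
      gr (rescU u x ρ) y = √ρ • gr u (x + ρ * y) := by
  have hs : √ρ ≠ 0 := (Real.sqrt_pos.2 hρ).ne'
  have h1 : fderiv ℝ (rescU u x ρ) y = √ρ • fderiv ℝ u (x + ρ * y) := by
    have e : rescU u x ρ = (√ρ)⁻¹ • (fun z : ℂ => (fun w => u (x + w)) (ρ • z)) := by
      ext z
      simp only [rescU, Pi.smul_apply, smul_eq_mul, Complex.real_smul]
      field_simp
    rw [e, fderiv_const_smul_field, Pi.smul_apply,
      fderiv_comp_smul (f := fun w => u (x + w)) ρ, fderiv_comp_add_left, smul_smul,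
      Complex.real_smul]
    congr 1
    have := Real.mul_self_sqrt hρ.le
    field_simp
    linarith
  refine ⟨h1, ?_, ?_⟩
  · simp only [dz, h1, smul_apply, smul_eq_mul]
    push_cast; ring
  · simp only [gr, h1, smul_apply, smul_eq_mul, Complex.real_smul]
    push_cast; ring

/-- The affine map as a measurable equivalence. -/
noncomputable def rsa_T (x : ℂ) {ρ : ℝ} (hρ : 0 < ρ) : ℂ ≃ᵐ ℂ :=
  (MeasurableEquiv.smul₀ ρ hρ.ne').trans (MeasurableEquiv.addLeft x)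

theorem rsa_T_apply (x : ℂ) {ρ : ℝ} (hρ : 0 < ρ) (z : ℂ) : rsa_T x hρ z = x + ρ * z := by
  simp [rsa_T]

theorem rsa_T_pre (x : ℂ) {ρ : ℝ} (hρ : 0 < ρ) (S : Set ℂ) : rsa_T x hρ ⁻¹' S = rescS S x ρ := by
  ext z
  simp only [mem_preimage, rsa_T_apply, rescS, mem_ofPred_eq]

theorem rsa_T_map (x : ℂ) {ρ : ℝ} (hρ : 0 < ρ) :
    Measure.map (rsa_T x hρ) (volume : Measure ℂ) = ENNReal.ofReal ((ρ ^ 2)⁻¹) • volume := by
  have e : (rsa_T x hρ : ℂ → ℂ) = (fun w => x + w) ∘ (fun z => ρ • z) := by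
    ext z; simp [rsa_T_apply]
  rw [e, ← Measure.map_map (measurable_const_add x) (measurable_const_smul ρ),
    Measure.map_addHaar_smul volume hρ.ne', Measure.map_smul, map_add_left_eq_self,
    Complex.finrank_real_complex, abs_of_pos (by positivity)]

theorem resc_integral (F : ℂ → ℝ) {S : Set ℂ} (hS : MeasurableSet S) (x : ℂ) {ρ : ℝ}
    (hρ : 0 < ρ) : ∫ z in rescS S x ρ, F (x + ρ * z) = (∫ z in S, F z) / ρ ^ 2 := by
  have h := setIntegral_map_equiv (μ := (volume : Measure ℂ)) (rsa_T x hρ) F S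
  rw [rsa_T_map, rsa_T_pre, Measure.restrict_smul, integral_smul_measure,
    ENNReal.toReal_ofReal (by positivity)] at h
  simp only [rsa_T_apply] at h
  rw [← h, smul_eq_mul]
  field_simp

theorem rsa_lintegral (F : ℂ → ℝ≥0∞) (S : Set ℂ) (x : ℂ) {ρ : ℝ} (hρ : 0 < ρ) :
    ∫⁻ z in rescS S x ρ, F (x + ρ * z) = ENNReal.ofReal ((ρ ^ 2)⁻¹) * ∫⁻ z in S, F z := by
  have h := lintegral_map_equiv (μ := (volume : Measure ℂ).restrict (rsa_T x hρ ⁻¹' S)) F
    (rsa_T x hρ)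
  rw [← (rsa_T x hρ).restrict_map, rsa_T_map, rsa_T_pre, Measure.restrict_smul,
    lintegral_smul_measure] at h
  simp only [rsa_T_apply] at h
  rw [← h, smul_eq_mul]

theorem resc_Dir (u : ℂ → ℝ) {S : Set ℂ} (hS : MeasurableSet S) (x : ℂ) {ρ : ℝ} (hρ : 0 < ρ) :
    ENNReal.ofReal ρ * Dir (rescU u x ρ) (rescS S x ρ) = Dir u S := by
  have e : ∀ z, ‖fderiv ℝ (rescU u x ρ) z‖ₑ ^ 2 =
      ENNReal.ofReal ρ * ‖fderiv ℝ u (x + ρ * z)‖ₑ ^ 2 := by
    intro z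
    rw [(resc_fderiv u x hρ z).1, enorm_smul, mul_pow, Real.enorm_eq_ofReal (Real.sqrt_nonneg _),
      ← ENNReal.ofReal_pow (Real.sqrt_nonneg _), Real.sq_sqrt hρ.le]
  unfold Dir
  simp only [e]
  rw [lintegral_const_mul' _ _ ENNReal.ofReal_ne_top,
    rsa_lintegral (fun z => ‖fderiv ℝ u z‖ₑ ^ 2) S x hρ, ← mul_assoc, ← mul_assoc,
    ← ENNReal.ofReal_mul hρ.le, ← ENNReal.ofReal_mul (by positivity)]
  have : ρ * ρ * (ρ ^ 2)⁻¹ = 1 := by field_simp
  rw [this, ENNReal.ofReal_one, one_mul]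

theorem resc_len (S : Set ℂ) (x : ℂ) {ρ : ℝ} (hρ : 0 < ρ) :
    ENNReal.ofReal ρ * μH[1] (rescS S x ρ) = μH[1] S := by
  have e : S = (fun w => x + w) '' ((fun z : ℂ => ρ • z) '' rescS S x ρ) := by
    ext w
    constructor
    · intro hw
      refine ⟨_, ⟨-x / ρ + (ρ⁻¹ : ℝ) * w, ?_, rfl⟩, ?_⟩
      · simp only [rescS, mem_ofPred_eq]
        rw [(resc_inv x hρ w).1]; exact hw
      · simp only [Complex.real_smul]
        exact (resc_inv x hρ w).1
    · rintro ⟨_, ⟨z, hz, rfl⟩, rfl⟩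
      simpa [rescS] using hz
  have h1 : μH[1] ((fun w => x + w) '' ((fun z : ℂ => ρ • z) '' rescS S x ρ)) =
      μH[1] ((fun z : ℂ => ρ • z) '' rescS S x ρ) :=
    (isometry_add_left x).hausdorffMeasure_image (Or.inl zero_le_one) _
  have h2 := Measure.hausdorffMeasure_smul₀ (d := 1) zero_le_one hρ.ne' (rescS S x ρ)
  conv_rhs => rw [e, h1]
  rw [image_smul, h2, NNReal.rpow_one, ENNReal.smul_def, smul_eq_mul]
  congr 1
  rw [← enorm_eq_nnnorm, Real.enorm_eq_ofReal hρ.le]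

theorem resc_En (u : ℂ → ℝ) {L S : Set ℂ} (hL : IsClosed L) (hS : MeasurableSet S) (x : ℂ) {ρ : ℝ}
    (hρ : 0 < ρ) :
    ENNReal.ofReal ρ * En (rescU u x ρ) (rescS L x ρ) (rescS S x ρ) = En u L S := by
  unfold En
  have e1 : rescS S x ρ \ rescS L x ρ = rescS (S \ L) x ρ := rfl
  have e2 : rescS L x ρ ∩ rescS S x ρ = rescS (L ∩ S) x ρ := rfl
  rw [e1, e2, mul_add, resc_Dir u (hS.diff hL.measurableSet) x hρ, resc_len _ x hρ]

theorem resc_locLip {U : Set ℂ} {u : ℂ → ℝ} (h : LocallyLipschitzOn U u) (x : ℂ) {ρ : ℝ}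
    (hρ : 0 < ρ) : LocallyLipschitzOn (rescS U x ρ) (rescU u x ρ) := by
  intro z hz
  obtain ⟨C, t, ht, hC⟩ := h (show x + ρ * z ∈ U from hz)
  have hc : Continuous (fun w : ℂ => x + ρ * w) := by fun_prop
  have hs : 0 < √ρ := Real.sqrt_pos.2 hρ
  refine ⟨C * Real.toNNReal (ρ / √ρ), rescS t x ρ, ?_, ?_⟩
  · exact (hc.continuousWithinAt (s := rescS U x ρ) (x := z)).preimage_mem_nhdsWithin'
      (nhdsWithin_mono _ (by rintro _ ⟨w, hw, rfl⟩; exact hw) ht)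
  · refine LipschitzOnWith.of_dist_le_mul fun a ha b hb => ?_
    have h1 := hC.dist_le_mul _ (show x + ρ * a ∈ t from ha) _ (show x + ρ * b ∈ t from hb)
    rw [resc_dist x hρ] at h1
    simp only [rescU, NNReal.coe_mul]
    rw [Real.coe_toNNReal _ (by positivity)]
    rw [Real.dist_eq, ← sub_div, abs_div, abs_of_pos hs, div_le_iff₀ hs]
    rw [Real.dist_eq] at h1
    calc _ ≤ C * (ρ * dist a b) := h1
      _ = _ := by field_simp

end Vale.Agent.P128
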