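import Vale.Agent.P128.TA2.RescA

/-! P128 TA2/RescB. Rescaling of competitors and of the minimality (helper names start with `rsb_`).
`rescS` is a preimage, so it commutes with `\`, `∩` by `rfl`. `Comp.rescale`: for `Sep`, a locally constant `c` on the rescaled set is pulled back by the inverse map
`z ↦ -x / ρ + ρ⁻¹ z` (`resc_inv`, continuity, `Filter.Tendsto.eventually`). `resc_min`: apply `Comp.rescale` with `(-x / ρ, ρ⁻¹)` at the centre `x + ρ y`, radius `ρ r`,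
rewrite with `rescS_inv`, `rescU_inv`, `resc_inv`; `h.min`; `resc_En` twice, cancel `ENNReal.ofReal ρ` (`ENNReal.mul_le_mul_iff_right`), `Real.sqrt_mul`. -/

namespace Vale.Agent.P128

open MeasureTheory Set Metric Filter Topology
open scoped ENNReal

theorem rsb_cont (x : ℂ) (ρ : ℝ) : Continuous fun z : ℂ => x + ρ * z :=
  continuous_const.add (continuous_const.mul continuous_id)

theorem rsb_LC {U V : Set ℂ} {c : ℂ → ℝ} (h : LC U c) {T : ℂ → ℂ} (hT : Continuous T)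
    (hV : ∀ z ∈ V, T z ∈ U) : LC V fun z => c (T z) :=
  fun z hz => (hT.tendsto z).eventually (h _ (hV z hz))

theorem Comp.rescale {Ω : Set ℂ} {wk : Prop} {u w : ℂ → ℝ} {K L : Set ℂ} {x y : ℂ} {ρ r : ℝ}
    (hρ : 0 < ρ) (h : Comp Ω wk u K (x + ρ * y) (ρ * r) w L) :
    Comp (rescS Ω x ρ) wk (rescU u x ρ) (rescS K x ρ) y r (rescU w x ρ) (rescS L x ρ) := by
  have hb := (resc_balls x hρ y r).1
  have hn : ∀ z, z ∉ closedBall y r → x + ρ * z ∉ closedBall (x + ρ * y) (ρ * r) :=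
    fun z hz hz' => hz (hb ▸ hz')
  refine ⟨h.closed.preimage (rsb_cont x ρ), ?_, fun z hz hz' => ?_, resc_locLip h.lip x hρ,
    fun hw c hc => ?_⟩
  · rw [← hb]
    exact congrArg (fun S => rescS S x ρ) h.eqL
  · rw [rescU, rescU, h.eqw _ hz (hn z hz')]
  · have h1 : LC (Ω \ K) fun z => c (-x / ρ + (ρ⁻¹ : ℝ) * z) :=
      rsb_LC hc (rsb_cont (-x / ρ) ρ⁻¹) fun z hz => by
        have e := (resc_inv x hρ z).1
        exact ⟨show x + ρ * _ ∈ Ω from e.symm ▸ hz.1, show x + ρ * _ ∉ K from e.symm ▸ hz.2⟩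
    obtain ⟨c', h2, h3⟩ := h.sep hw _ h1
    refine ⟨fun z => c' (x + ρ * z), rsb_LC h2 (rsb_cont x ρ) fun z hz => hz, fun z hz hz' => ?_⟩
    exact (h3 _ hz (hn z hz')).trans (congrArg c (resc_inv x hρ z).2)

theorem resc_min {Ω : Set ℂ} {ε : ℝ} {wk : Prop} {u : ℂ → ℝ} {K : Set ℂ}
    (h : AM0 Ω ε wk u K) (x : ℂ) {ρ : ℝ} (hρ : 0 < ρ) {y : ℂ} {r : ℝ} {w : ℂ → ℝ} {L : Set ℂ}
    (hr : 0 < r) (hB : closedBall y r ⊆ rescS Ω x ρ)
    (hc : Comp (rescS Ω x ρ) wk (rescU u x ρ) (rescS K x ρ) y r w L) :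
    En (rescU u x ρ) (rescS K x ρ) (closedBall y r) ≤
      En w L (closedBall y r) + ENNReal.ofReal (ε * √ρ * r * √r) := by
  have e1 : r = ρ⁻¹ * (ρ * r) := (inv_mul_cancel_left₀ hρ.ne' r).symm
  have h1 : Comp (rescS Ω x ρ) wk (rescU u x ρ) (rescS K x ρ)
      (-x / ρ + (ρ⁻¹ : ℝ) * (x + ρ * y)) (ρ⁻¹ * (ρ * r)) w L := by
    rwa [(resc_inv x hρ y).2, ← e1]
  have h2 := h1.rescale (inv_pos.2 hρ)
  rw [(rescS_inv Ω x hρ).1, (rescS_inv K x hρ).1, (rescU_inv u x hρ).1] at h2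
  have h3 := h.min _ _ _ _ (mul_pos hρ hr) (resc_sub hρ hB) h2
  rw [← resc_En u h.closed measurableSet_closedBall x hρ,
    ← resc_En _ h2.closed measurableSet_closedBall x hρ, (resc_balls x hρ y r).1,
    (rescS_inv L x hρ).2, (rescU_inv w x hρ).2, Real.sqrt_mul hρ.le,
    show ε * (ρ * r) * (√ρ * √r) = ρ * (ε * √ρ * r * √r) by ring, ENNReal.ofReal_mul hρ.le,
    ← mul_add] at h3
  exact (ENNReal.mul_le_mul_iff_right (ENNReal.ofReal_pos.2 hρ).ne' ENNReal.ofReal_ne_top).1 h3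

end Vale.Agent.P128
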