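import Vale.Agent.P128.TA2.Dz
import Vale.Agent.P128.TA2.Lip

/-! P128 TA2/Upper. Energy upper bound (helper names start with `upp_`).
`comp_sphere`: `L = (K \ ball y r) ∪ sphere y r`, `w = 0` on the closed ball and `u` outside; a point of `Ω \ L` is in the open ball, or off the closed
ball and off `K` (`locLip_iff`, `LipAt.congr`); same for `Sep` with `c' = 0` on the closed ball, `c` outside; `closedBall \ L = ball`, `L ∩ closedBall = sphere`, `len_sphere`.
`upper`: `h.min`, `h.small`, `Real.pi_le_four` is too weak, use `Real.pi_lt_d2`. `upper_real`: `(polar h.closed u y).2.2 r`, `ENNReal.ofReal_toReal`.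
`vol`: `measure_null_of_locally_null`, `vol_zero_of_len`. -/

namespace Vale.Agent.P128

open MeasureTheory Set Metric Filter Topology
open scoped ENNReal

theorem upp_cases {K : Set ℂ} {y z : ℂ} {r : ℝ} (hz : z ∉ (K \ ball y r) ∪ sphere y r) :
    z ∈ ball y r ∨ (z ∉ closedBall y r ∧ z ∉ K) := by
  by_cases h1 : z ∈ ball y r
  · exact Or.inl h1
  · refine Or.inr ⟨fun h2 => hz (Or.inr ?_), fun h2 => hz (Or.inl ⟨h2, h1⟩)⟩
    exact mem_sphere.2 (le_antisymm (mem_closedBall.1 h2) (not_lt.1 fun h3 => h1 h3))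

open Classical in
theorem upp_in (u : ℂ → ℝ) {y z : ℂ} {r : ℝ} (hz : z ∈ ball y r) :
    (fun z => if z ∈ closedBall y r then 0 else u z) =ᶠ[𝓝 z] fun _ => (0 : ℝ) := by
  filter_upwards [isOpen_ball.mem_nhds hz] with w hw
  exact if_pos (ball_subset_closedBall hw)

open Classical in
theorem upp_out (u : ℂ → ℝ) {y z : ℂ} {r : ℝ} (hz : z ∉ closedBall y r) :
    (fun z => if z ∈ closedBall y r then 0 else u z) =ᶠ[𝓝 z] u := by
  filter_upwards [isClosed_closedBall.isOpen_compl.mem_nhds hz] with w hw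
  exact if_neg hw

/-- The competitor that cuts along the circle. -/
theorem comp_sphere {Ω K : Set ℂ} {u : ℂ → ℝ} (wk : Prop) (hΩ : IsOpen Ω) (hK : IsClosed K)
    (hu : LocallyLipschitzOn (Ω \ K) u) (y : ℂ) {r : ℝ} (hr : 0 < r) :
    ∃ w L, Comp Ω wk u K y r w L ∧
      En w L (closedBall y r) ≤ ENNReal.ofReal (2 * Real.pi * r) := by
  classical
  have hL : IsClosed ((K \ ball y r) ∪ sphere y r) :=
    (hK.sdiff isOpen_ball).union isClosed_sphere
  refine ⟨fun z => if z ∈ closedBall y r then 0 else u z, (K \ ball y r) ∪ sphere y r,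
    ⟨hL, ?_, ?_, ?_, ?_⟩, ?_⟩
  · ext z
    constructor
    · rintro ⟨h1 | h1, h2⟩
      · exact ⟨h1.1, h2⟩
      · exact absurd (sphere_subset_closedBall h1) h2
    · rintro ⟨h1, h2⟩
      exact ⟨Or.inl ⟨h1, fun h3 => h2 (ball_subset_closedBall h3)⟩, h2⟩
  · intro z _ hz
    exact if_neg hz
  · refine (locLip_iff (hΩ.sdiff hL)).2 fun z hz => ?_
    rcases upp_cases hz.2 with h1 | ⟨h1, h2⟩
    · exact (lipAt_const 0 z).congr (upp_in u h1)
    · exact ((locLip_iff (hΩ.sdiff hK)).1 hu z ⟨hz.1, h2⟩).congr (upp_out u h1)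
  · intro _ c hc
    refine ⟨fun z => if z ∈ closedBall y r then 0 else c z, fun z hz => ?_, fun z _ hz => if_neg hz⟩
    rcases upp_cases hz.2 with h1 | ⟨h1, h2⟩
    · filter_upwards [upp_in c h1] with w hw
      rw [hw, if_pos (ball_subset_closedBall h1)]
    · filter_upwards [upp_out c h1, hc z ⟨hz.1, h2⟩] with w hw hw'
      rw [hw, hw', if_neg h1]
  · have e1 : closedBall y r \ ((K \ ball y r) ∪ sphere y r) ⊆ ball y r := by
      intro z hz
      rcases upp_cases hz.2 with h1 | ⟨h1, -⟩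
      · exact h1
      · exact absurd hz.1 h1
    have e2 : ((K \ ball y r) ∪ sphere y r) ∩ closedBall y r ⊆ sphere y r := by
      rintro z ⟨h1 | h1, h2⟩
      · exact mem_sphere.2 (le_antisymm (mem_closedBall.1 h2) (not_lt.1 fun h3 => h1.2 h3))
      · exact h1
    have e3 : Dir (fun z => if z ∈ closedBall y r then 0 else u z) (ball y r) = 0 := by
      unfold Dir
      refine (setLIntegral_congr_fun measurableSet_ball (g := fun _ => 0) fun z hz => ?_).trans
        lintegral_zero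
      simp only [(upp_in u hz).fderiv_eq, fderiv_fun_const, Pi.zero_apply]
      rw [← ofReal_norm, norm_zero]
      simp
    have e4 : Dir (fun z => if z ∈ closedBall y r then 0 else u z)
        (closedBall y r \ ((K \ ball y r) ∪ sphere y r)) = 0 :=
      le_antisymm ((lintegral_mono_set e1).trans e3.le) zero_le
    unfold En
    rw [e4, zero_add]
    exact (measure_mono e2).trans (len_sphere y hr.le)

/-- Energy upper bound. -/
theorem AM0.upper {Ω : Set ℂ} {ε : ℝ} {wk : Prop} {u : ℂ → ℝ} {K : Set ℂ}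
    (h : AM0 Ω ε wk u K) {y : ℂ} {r : ℝ} (hr : 0 < r) (hB : closedBall y r ⊆ Ω) :
    En u K (closedBall y r) ≤ ENNReal.ofReal (8 * r) := by
  obtain ⟨w, L, hC, hE⟩ := comp_sphere wk h.isOpen h.closed h.locLip y hr
  refine (h.min y r w L hr hB hC).trans ((add_le_add hE le_rfl).trans ?_)
  have h1 := h.small y r hr hB
  have h2 := h.eps
  rw [← ENNReal.ofReal_add (by positivity) (by positivity)]
  refine ENNReal.ofReal_le_ofReal ?_
  have h3 := Real.pi_lt_d2
  have h4 : ε * r * √r = r * (ε * √r) := by ring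
  nlinarith [mul_le_mul_of_nonneg_left h1 hr.le]

/-- Real forms of the energy upper bound. -/
theorem AM0.upper_real {Ω : Set ℂ} {ε : ℝ} {wk : Prop} {u : ℂ → ℝ} {K : Set ℂ}
    (h : AM0 Ω ε wk u K) {y : ℂ} {r : ℝ} (hr : 0 < r) (hB : closedBall y r ⊆ Ω) :
    Dir u (closedBall y r \ K) = ENNReal.ofReal (D u K y r) ∧
    Dir u (ball y r \ K) = ENNReal.ofReal (D u K y r) ∧
    μH[1] (K ∩ closedBall y r) = ENNReal.ofReal (lenc K y r) ∧
    μH[1] (K ∩ ball y r) = ENNReal.ofReal (len K y r) ∧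
    En u K (closedBall y r) = ENNReal.ofReal (D u K y r + lenc K y r) ∧
    0 ≤ D u K y r ∧ 0 ≤ len K y r ∧ len K y r ≤ lenc K y r ∧
    D u K y r + lenc K y r ≤ 8 * r := by
  have hE := h.upper hr hB
  have hfin : En u K (closedBall y r) ≠ ∞ := ne_top_of_le_ne_top ENNReal.ofReal_ne_top hE
  have hp := (polar h.closed u y).2.2 r
  have e0 : Dir u (closedBall y r \ K) = Dir u (ball y r \ K) := hp.2.trans hp.1.symm
  have f1 : Dir u (closedBall y r \ K) ≠ ∞ := ne_top_of_le_ne_top hfin le_self_add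
  have f2 : μH[1] (K ∩ closedBall y r) ≠ ∞ := ne_top_of_le_ne_top hfin le_add_self
  have m3 : μH[1] (K ∩ ball y r) ≤ μH[1] (K ∩ closedBall y r) :=
    measure_mono (inter_subset_inter_right _ ball_subset_closedBall)
  have f3 : μH[1] (K ∩ ball y r) ≠ ∞ := ne_top_of_le_ne_top f2 m3
  have g2 : Dir u (ball y r \ K) = ENNReal.ofReal (D u K y r) :=
    (ENNReal.ofReal_toReal (e0 ▸ f1)).symm
  have g1 : Dir u (closedBall y r \ K) = ENNReal.ofReal (D u K y r) := e0.trans g2
  have g3 : μH[1] (K ∩ closedBall y r) = ENNReal.ofReal (lenc K y r) :=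
    (ENNReal.ofReal_toReal f2).symm
  have g4 : μH[1] (K ∩ ball y r) = ENNReal.ofReal (len K y r) :=
    (ENNReal.ofReal_toReal f3).symm
  have p1 : 0 ≤ D u K y r := ENNReal.toReal_nonneg
  have p2 : 0 ≤ lenc K y r := ENNReal.toReal_nonneg
  have g5 : En u K (closedBall y r) = ENNReal.ofReal (D u K y r + lenc K y r) := by
    rw [ENNReal.ofReal_add p1 p2, ← g1, ← g3]
    rfl
  refine ⟨g1, g2, g3, g4, g5, p1, ENNReal.toReal_nonneg, ENNReal.toReal_mono f2 m3, ?_⟩
  rw [g5] at hE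
  exact (ENNReal.ofReal_le_ofReal_iff (by positivity)).1 hE

theorem AM0.vol {Ω : Set ℂ} {ε : ℝ} {wk : Prop} {u : ℂ → ℝ} {K : Set ℂ}
    (h : AM0 Ω ε wk u K) : volume (K ∩ Ω) = 0 := by
  refine measure_null_of_locally_null _ fun x hx => ?_
  obtain ⟨r, hr, hB⟩ := nhds_basis_closedBall.mem_iff.1 (h.isOpen.mem_nhds hx.2)
  refine ⟨K ∩ closedBall x r, ?_, vol_zero_of_len ?_⟩
  · exact mem_of_superset (inter_mem_nhdsWithin _ (closedBall_mem_nhds x hr))
      fun z hz => ⟨hz.1.1, hz.2⟩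
  · rw [(h.upper_real hr hB).2.2.1]
    exact ENNReal.ofReal_lt_top

end Vale.Agent.P128
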